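import Mathlib

/-!
# P089: definitions (coloured graphs, words, models, families)

Words are lists of colours; colours act as (partial) involutions.  See PROOF.md.
-/

namespace P089

open scoped Classical

/-- end point of the path with colour word `w` starting at `v`, if it exists -/
def walk {V S : Type} (nb : V → S → Option V) : V → List S → Option V
  | v, [] => some v
  | v, s :: w => (nb v s).bind fun v' => walk nb v' w

/-- end point for a total action -/
def go {V S : Type} (act : V → S → V) (v : V) (w : List S) : V := w.foldl act v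

/-- reduced word: no two consecutive colours are equal -/
def Red {S : Type} (w : List S) : Prop := w.IsChain (· ≠ ·)

/-- position graph (disjoint union of the `X_n`) with piece length function `L` -/
structure PG (S : Type) where
  P : Type
  nb : P → S → Option P
  L : P → ℕ
  symm : ∀ x s y, nb x s = some y → nb y s = some x
  irr : ∀ x s, nb x s ≠ some x
  L_nb : ∀ x s y, nb x s = some y → L y = L x
  L_pos : ∀ x, 1 ≤ L x
  girth : ∀ x w, Red w → w ≠ [] → walk nb x w = some x → 100 * L x ≤ w.length
  sc : ∀ x y w, x ≠ y → Red w → (walk nb x w).isSome → (walk nb y w).isSome →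
    w.length < L x ∧ w.length < L y
  col : ∀ s, ∃ x, (nb x s).isSome

/-- model: all copies close up and embed (`full`), and the peeling order -/
structure Model {S : Type} (Pg : PG S) (V : Type) (act : V → S → V) where
  base : V
  inv : ∀ v s, act (act v s) s = v
  full : ∀ v x w y, walk Pg.nb x w = some y → (go act v w = v ↔ y = x)
  lev : V → Pg.P → ℕ
  ctr : V → Pg.P → Pg.P
  lev_nb : ∀ v x s y, Pg.nb x s = some y → lev (act v s) y = lev v x
  ctr_nb : ∀ v x s y, Pg.nb x s = some y → ctr (act v s) y = ctr v x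
  lev_base : ∀ v x y, lev base x ≤ lev v y
  ctr_conn : ∀ v x, ∃ w, walk Pg.nb (ctr v x) w = some x
  peel : ∀ v x y, x ≠ y → lev v y ≤ lev v x →
    ∃ w, w.length ≤ 3 * Pg.L x ∧ walk Pg.nb (ctr v x) w = some x

section Chains

variable {S : Type} [Fintype S]

/-- finitely supported `F_2`-cycle of the graph of a total action -/
structure Cyc {V : Type} (act : V → S → V) (z : V → S → ZMod 2) : Prop where
  symm : ∀ v s, z (act v s) s = z v s
  fin : {p : V × S | z p.1 p.2 ≠ 0}.Finite
  bd : ∀ v, ∑ s, z v s = 0

/-- `F_2`-cycle of the component of the position `x` -/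
structure PCyc (Pg : PG S) (x : Pg.P) (y : Pg.P → S → ZMod 2) : Prop where
  supp : ∀ q s, y q s ≠ 0 → (Pg.nb q s).isSome ∧ ∃ w, walk Pg.nb x w = some q
  symm : ∀ q s q', Pg.nb q s = some q' → y q' s = y q s
  bd : ∀ q, ∑ s, y q s = 0

/-- `z` is the chain `y` transported to the copy having position `x` at `v` -/
def IsPush {V : Type} (Pg : PG S) (act : V → S → V) (v : V) (x : Pg.P) (y : Pg.P → S → ZMod 2)
    (z : V → S → ZMod 2) : Prop :=
  (∀ w q s, walk Pg.nb x w = some q → z (go act v w) s = y q s) ∧
    ∀ u s, z u s ≠ 0 → ∃ w q, walk Pg.nb x w = some q ∧ u = go act v w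

/-- (G3): every finite cycle is a sum of cycles of copies -/
def Gen3 {V : Type} (Pg : PG S) (act : V → S → V) : Prop :=
  ∀ z, Cyc act z → z ∈ Submodule.span (ZMod 2)
    {z' : V → S → ZMod 2 | ∃ v x y, PCyc Pg x y ∧ IsPush Pg act v x y z'}

/-- colours used at a position -/
noncomputable def PG.ty (Pg : PG S) (x : Pg.P) : Finset S :=
  Finset.univ.filter fun s => (Pg.nb x s).isSome

/-- number of darts inside a finite set of positions -/
noncomputable def PG.darts (Pg : PG S) (F : Finset Pg.P) : ℕ :=
  ((F ×ˢ (Finset.univ : Finset S)).filter fun p => ∃ y ∈ F, Pg.nb p.1 p.2 = some y).card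

end Chains

/-- the family of finite graphs `X n` -/
structure Fam (S : Type) [Fintype S] (d : ℕ) extends PG S where
  idx : P → ℕ
  X : ℕ → Finset P
  memX : ∀ n x, x ∈ X n ↔ idx x = n
  conn : ∀ x y, idx x = idx y ↔ ∃ w, walk nb x w = some y
  nonempty : ∀ n, (X n).Nonempty
  deg : ∀ x, (toPG.ty x).card ≤ d

section FamProps

variable {S : Type} [Fintype S] {d : ℕ} (Fm : Fam S d)

/-- value of `f` at the `s`-neighbour (0 if there is none) -/
noncomputable def PG.nbv {S : Type} (Pg : PG S) {K : Type} [Zero K] (f : Pg.P → K) (x : Pg.P) (s : S) : K :=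
  match Pg.nb x s with
  | some y => f y
  | none => 0

/-- (B2) isoperimetry for sets of at most 95 percent of the vertices -/
def Fam.B2 (h : ℝ) : Prop :=
  ∀ n (F : Finset Fm.P), F ⊆ Fm.X n → (F.card : ℝ) ≤ 19 / 20 * (Fm.X n).card →
    (Fm.darts F : ℝ) ≤ (d - h) * F.card

/-- (B3) few missing darts -/
def Fam.B3 (ε : ℝ) : Prop := ∀ n, ((d : ℝ) - ε) * (Fm.X n).card ≤ Fm.darts (Fm.X n)

/-- (Poin) Poincare inequality, missing darts counted as Dirichlet -/
def Fam.Poin (cP : ℝ) : Prop :=
  ∀ n (f : Fm.P → ℝ), ∑ x ∈ Fm.X n, f x = 0 →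
    cP * ∑ x ∈ Fm.X n, f x ^ 2 ≤ ∑ x ∈ Fm.X n, (d * f x ^ 2 - ∑ s, f x * Fm.nbv f x s)

/-- balls of radius `3 L` are small -/
def Fam.Ball : Prop :=
  ∀ n, ∀ x ∈ Fm.X n,
    8 * {y | ∃ w, w.length ≤ 3 * Fm.L x ∧ walk Fm.nb x w = some y}.ncard ≤ (Fm.X n).card

/-- everything Part B has to provide -/
structure Fam.Good (h cP ε : ℝ) (L0 K0 : ℕ) : Prop where
  b2 : Fm.B2 h
  b3 : Fm.B3 ε
  poin : Fm.Poin cP
  ball : Fm.Ball
  L0_le : ∀ x, L0 ≤ Fm.L x
  K0_le : ∀ n, K0 ≤ (Fm.X n).card
  growth : ∀ n, 2 * (Fm.X n).card ≤ (Fm.X (n + 1)).card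
  L_tend : ∀ K : ℕ, ∃ N : ℕ, ∀ x, N ≤ Fm.idx x → K ≤ Fm.L x

end FamProps

/-! ### configurations -/

section Config

variable {S : Type} {V : Type}

/-- colour `s` is used at `v` -/
def used (ω : V → Option (Finset S)) (v : V) (s : S) : Prop := ∃ t, ω v = some t ∧ s ∈ t

/-- linked dart -/
def link (act : V → S → V) (ω : V → Option (Finset S)) (v : V) (s : S) : Prop :=
  used ω v s ∧ used ω (act v s) s

variable [Fintype S]

/-- the copy having position `x` at `v` is active for `ω` -/
def Active (Pg : PG S) (act : V → S → V) (ω : V → Option (Finset S)) (v : V) (x : Pg.P) : Prop :=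
  ∀ w y, walk Pg.nb x w = some y → ω (go act v w) = some (Pg.ty y)

/-- positions of the copy at which `ω` is right -/
def matchSet (Pg : PG S) (act : V → S → V) (ω : V → Option (Finset S)) (v : V) (x : Pg.P) :
    Set Pg.P :=
  {y | ∃ w, walk Pg.nb x w = some y ∧ ω (go act v w) = some (Pg.ty y)}

/-- hypothesis on `ω`: legal types have at most `d` colours, and a copy is active or wrong at
10 percent of its vertices -/
structure Legal {d : ℕ} (Fm : Fam S d) (act : V → S → V) (ω : V → Option (Finset S)) : Prop where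
  card_le : ∀ v t, ω v = some t → t.card ≤ d
  code : ∀ v x, ¬ Active Fm.toPG act ω v x →
    10 * (matchSet Fm.toPG act ω v x).ncard ≤ 9 * (Fm.X (Fm.idx x)).card

/-- vertices which are legal and in no active copy -/
def Rest (Pg : PG S) (act : V → S → V) (ω : V → Option (Finset S)) : Set V :=
  {v | (ω v).isSome ∧ ∀ x, ¬ Active Pg act ω v x}

/-- linked darts inside a finite set of vertices -/
noncomputable def ldarts (act : V → S → V) (ω : V → Option (Finset S)) (F : Finset V) : ℕ :=
  ((F ×ˢ (Finset.univ : Finset S)).filter fun p => link act ω p.1 p.2 ∧ act p.1 p.2 ∈ F).card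

end Config

/-! ### the group `Gam` -/

section Group

variable {S : Type} (Pg : PG S)

/-- relators: squares of the colours and closed words of the position graphs -/
def rel : Set (FreeGroup S) :=
  {g | ∃ s, g = FreeGroup.of s * FreeGroup.of s} ∪
    {g | ∃ x w, walk Pg.nb x w = some x ∧ g = (w.map FreeGroup.of).prod}

abbrev Gam : Type := PresentedGroup (rel Pg)

/-- generators of `Gam` -/
def gen (s : S) : Gam Pg := PresentedGroup.of s

/-- the group element of a word -/
def wd (w : List S) : Gam Pg := (w.map (gen Pg)).prod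

/-- right multiplication by the generators: the Cayley graph -/
def cay : Gam Pg → S → Gam Pg := fun g s => g * gen Pg s

end Group

end P089
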