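import Vale.Agent.Lib.P089.Defs

/-!
# P089: interface of the parts A, B, C, D (see PROOF.md)
-/

namespace P089

open scoped Classical

/-- Part A: every position graph has a model -/
def PartA : Prop :=
  ∀ (S : Type) (Pg : PG S), ∃ (V : Type) (act : V → S → V), Nonempty (Model Pg V act)

/-- Part A2: the Cayley graph of `Gam` is a model with base `1` -/
def PartA2 : Prop :=
  ∀ (S : Type) (Pg : PG S), ∃ M : Model Pg (Gam Pg) (cay Pg), M.base = 1

/-- Part A3: homology of the Cayley graph is generated by the copies -/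
def PartA3 : Prop :=
  ∀ (S : Type) [Fintype S] (Pg : PG S), Model Pg (Gam Pg) (cay Pg) → Gen3 Pg (cay Pg)

/-- Part B: existence of the family -/
def PartB : Prop :=
  ∃ (d : ℕ) (h cP : ℝ), 3 ≤ d ∧ 0 < h ∧ 0 < cP ∧ ∀ ε : ℝ, 0 < ε → ∀ L0 K0 : ℕ,
    ∃ (S : Type) (_ : Fintype S) (Fm : Fam S d), Fm.Good h cP ε L0 K0

/-- Part C: codes -/
def PartC : Prop :=
  ∃ K0 : ℕ, ∀ (k : ℕ), 2 ≤ k → ∀ (X : Type) [Fintype X], K0 ≤ Fintype.card X →
    ∀ τ : X → Fin k → ZMod 2, (∀ x, τ x ≠ 0) → ∀ B : X → Finset X,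
      (∀ x, 8 * (B x).card ≤ Fintype.card X) →
      ∃ R : Submodule (ZMod 2) (X → Fin k → ZMod 2),
        Module.finrank (ZMod 2) R = k * Fintype.card X / 2 ∧
        (∀ r ∈ R, ∑ x, ∑ i, r x i * τ x i = 0) ∧
        (∀ r ∈ R, ∀ x, (∀ y, y ∉ B x → r y = 0) → r = 0) ∧
        ∀ ω : X → Fin k → ZMod 2, (∀ r ∈ R, ∑ x, ∑ i, r x i * ω x i = 0) → ω ≠ 0 →
          Fintype.card X ≤ 10 * (Finset.univ.filter fun x => ω x ≠ 0).card

/-- Part D: isoperimetry outside the active copies -/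
def PartD : Prop :=
  ∀ (d : ℕ) (h : ℝ), 3 ≤ d → 0 < h → ∃ (c : ℝ) (L0 : ℕ), 0 < c ∧
    ∀ (S : Type) [Fintype S] (Fm : Fam S d), Fm.B2 h → (∀ x, L0 ≤ Fm.L x) →
      ∀ (V : Type) (act : V → S → V), Model Fm.toPG V act → Gen3 Fm.toPG act →
        ∀ ω : V → Option (Finset S), Legal Fm act ω →
          ∀ F : Finset V, (∀ v ∈ F, v ∈ Rest Fm.toPG act ω) →
            (ldarts act ω F : ℝ) ≤ (d - c) * F.card

/-- Part Ch: Cheeger inequality with Dirichlet boundary -/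
def PartCh : Prop :=
  ∀ (d : ℕ) (c : ℝ), 0 < c → ∃ c' : ℝ, 0 < c' ∧
    ∀ (S V : Type) [Fintype S] (act : V → S → V) (lk : V → S → Prop),
      (∀ v s, act (act v s) s = v) → (∀ v s, lk v s → lk (act v s) s) →
      (∀ v, (Finset.univ.filter (lk v)).card ≤ d) → ∀ U : Set V,
      (∀ F : Finset V, (∀ v ∈ F, v ∈ U) →
        (((F ×ˢ (Finset.univ : Finset S)).filter
          fun p => lk p.1 p.2 ∧ act p.1 p.2 ∈ F).card : ℝ) ≤ (d - c) * F.card) →
      ∀ f : V →₀ ℝ, (∀ v ∈ f.support, v ∈ U) →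
        c' * ∑ v ∈ f.support, f v ^ 2 ≤
          ∑ v ∈ f.support, (d * f v ^ 2 - ∑ s, if lk v s then f v * f (act v s) else 0)

end P089
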