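import Vale.Agent.Lib.P089.Interface2

/-!
# P089: the delocalised coefficients of `Bel n` at the central involutions
-/

namespace P089

open scoped Classical

noncomputable section

/-- F7: coefficients of `B_m^* B_m` at an invariant element of `A` -/
def PartF7 : Prop :=
  ∀ St : Setup, EProps St → ∀ φ : ℕ → St.Fm.P → ℝ, (∀ n, ∑ y ∈ St.Fm.X n, φ n y ^ 2 = 1) →
    ∀ z : St.A, (∀ γ, St.actA γ z = z) → ∀ m,
      inner ℂ (iota (St.Bel φ m)) (iota (St.Bel φ m * MonoidAlgebra.single (St.ofA z) 1)) =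
        if z ∈ St.Acopy m then ((Nat.card (St.Acopy m) : ℂ))⁻¹ * Setup.sgn (St.tau m z) else 0

/-- right translation is isometric -/
def PartF8 : Prop :=
  ∀ (G : Type) [Group G] (x : MonoidAlgebra ℂ G) (g : G),
    ‖iota (x * MonoidAlgebra.single g 1)‖ = ‖iota x‖

end

end P089
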