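import Vale.Agent.Lib.P089.Interface
import Vale.Agent.Lib.P089.Interface3

/-!
# P089: assembly
-/

namespace P089

open scoped Classical

noncomputable section

/-- the conclusion -/
def Counter : Prop :=
  ∃ (G : Type) (_ : Group G), Group.FG G ∧ ∃ p ∈ Cred G, p * p = p ∧
    (∀ x y : HH G, inner ℂ (p x) y = inner ℂ x (p y)) ∧
    Irrational (inner ℂ (p (dl 1)) (dl 1 : HH G)).re

theorem exists_enc (S : Type) [Fintype S] :
    ∃ enc : Finset S → (Fin (Fintype.card S + 2) → ZMod 2),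
      Function.Injective enc ∧ ∀ t, enc t ≠ 0 := by
  have hcard : Fintype.card (Finset S) ≤
      Fintype.card {u : Fin (Fintype.card S + 2) → ZMod 2 // u ≠ 0} := by
    rw [Fintype.card_finset, Fintype.card_subtype_compl, Fintype.card_fun]
    have h1 : Fintype.card {x : Fin (Fintype.card S + 2) → ZMod 2 // x = 0} = 1 := by
      simp
    rw [h1, ZMod.card, Fintype.card_fin]
    have h2 : 1 ≤ 2 ^ Fintype.card S := Nat.one_le_two_pow
    have h3 : 2 ^ (Fintype.card S + 2) = 4 * 2 ^ Fintype.card S := by ring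
    omega
  obtain ⟨f⟩ := Function.Embedding.nonempty_of_card_le hcard
  exact ⟨fun t => (f t).1, fun t t' h => f.injective (Subtype.ext h), fun t => (f t).2⟩

/-- the setup from a good family and the codes -/
theorem setup_of_good (K0 : ℕ)
    (hK0 : ∀ (k : ℕ), 2 ≤ k → ∀ (X : Type) [Fintype X], K0 ≤ Fintype.card X →
    ∀ τ : X → Fin k → ZMod 2, (∀ x, τ x ≠ 0) → ∀ B : X → Finset X,
      (∀ x, 8 * (B x).card ≤ Fintype.card X) →
      ∃ (R : Submodule (ZMod 2) (X → Fin k → ZMod 2)) (rs : X → Fin k → ZMod 2),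
        Module.finrank (ZMod 2) R = k * Fintype.card X / 2 ∧
        (∀ r ∈ R, ∑ x, ∑ i, r x i * τ x i = 0) ∧
        (∀ r ∈ R, ∀ x, (∀ y, y ∉ B x → r y = 0) → r = 0) ∧
        (∀ ω : X → Fin k → ZMod 2, (∀ r ∈ R, ∑ x, ∑ i, r x i * ω x i = 0) → ω ≠ 0 →
          Fintype.card X ≤ 10 * (Finset.univ.filter fun x => ω x ≠ 0).card) ∧
        (∑ x, ∑ i, rs x i * τ x i = 0) ∧
        (∀ r ∈ R, ∀ x, ¬ ∀ y, y ∉ B x → (rs + r) y = 0))
    (d : ℕ) (h cP ε : ℝ) (L0 K1 : ℕ) (hK : K0 ≤ K1) (S : Type) [Fintype S] (Fm : Fam S d)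
    (hG : Fm.Good h cP ε L0 K1) :
    ∃ St : Setup, St.d = d ∧ 2 ≤ St.k ∧ St.Fm.Good h cP ε L0 K1 := by
  obtain ⟨enc, einj, ene⟩ := exists_enc S
  have key : ∀ n, ∃ (R : Submodule (ZMod 2)
      ({y // y ∈ Fm.X n} → Fin (Fintype.card S + 2) → ZMod 2))
      (rs : {y // y ∈ Fm.X n} → Fin (Fintype.card S + 2) → ZMod 2),
      Module.finrank (ZMod 2) R = (Fintype.card S + 2) * (Fm.X n).card / 2 ∧
      (∀ r ∈ R, ∑ y, ∑ i, r y i * enc (Fm.ty y.1) i = 0) ∧
      (∀ r ∈ R, ∀ x : {y // y ∈ Fm.X n},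
        (∀ y : {y // y ∈ Fm.X n},
          (¬ ∃ w, w.length ≤ 3 * Fm.L x.1 ∧ walk Fm.nb x.1 w = some y.1) → r y = 0) → r = 0) ∧
      (∀ (ω : {y // y ∈ Fm.X n} → Fin (Fintype.card S + 2) → ZMod 2),
        (∀ r ∈ R, ∑ y, ∑ i, r y i * ω y i = 0) → ω ≠ 0 →
        (Fm.X n).card ≤ 10 * (Finset.univ.filter fun y => ω y ≠ 0).card) ∧
      (∑ y, ∑ i, rs y i * enc (Fm.ty y.1) i = 0) ∧
      (∀ r ∈ R, ∀ x : {y // y ∈ Fm.X n},
        ¬ ∀ y : {y // y ∈ Fm.X n},
          (¬ ∃ w, w.length ≤ 3 * Fm.L x.1 ∧ walk Fm.nb x.1 w = some y.1) → (rs + r) y = 0) := by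
    intro n
    have hc : Fintype.card {y // y ∈ Fm.X n} = (Fm.X n).card := Fintype.card_coe _
    set B : {y // y ∈ Fm.X n} → Finset {y // y ∈ Fm.X n} := fun x => Finset.univ.filter fun y =>
        ∃ w : List S, w.length ≤ 3 * Fm.L x.1 ∧ walk Fm.nb x.1 w = some y.1 with hBdef
    have hB8 : ∀ x, 8 * (B x).card ≤ Fintype.card {y // y ∈ Fm.X n} := by
      intro x
      rw [hc]
      refine le_trans ?_ (hG.ball n x.1 x.2)
      refine Nat.mul_le_mul_left 8 ?_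
      have hfin : {y | ∃ w, w.length ≤ 3 * Fm.L x.1 ∧ walk Fm.nb x.1 w = some y}.Finite := by
        refine (Fm.X n).finite_toSet.subset ?_
        rintro y ⟨w, _, hw⟩
        have := (Fm.conn x.1 y).2 ⟨w, hw⟩
        have hx := (Fm.memX n x.1).1 x.2
        exact (Fm.memX n y).2 (by rw [← this, hx])
      rw [← Set.ncard_coe_finset]
      refine le_trans (le_of_eq ?_) (Set.ncard_le_ncard (s := Subtype.val ''
        ((B x : Finset _) : Set {y // y ∈ Fm.X n})) ?_ hfin)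
      · exact (Set.ncard_image_of_injective _ Subtype.val_injective).symm
      · rintro _ ⟨y, hy, rfl⟩
        simpa [hBdef] using hy
    have hne : ∀ y : {y // y ∈ Fm.X n}, enc (Fm.ty y.1) ≠ 0 := fun y => ene _
    have hX := hK0 (Fintype.card S + 2) (by omega) {y // y ∈ Fm.X n}
      (by rw [hc]; exact hK.trans (hG.K0_le n)) (fun y => enc (Fm.ty y.1)) hne B hB8
    obtain ⟨R, rs, h1, h2, h3, h4, h5, h6⟩ := hX
    rw [hc] at h1
    refine ⟨R, rs, h1, h2, ?_, ?_, h5, ?_⟩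
    · intro r hr x hx
      refine h3 r hr x fun y hy => hx y ?_
      simpa [hBdef] using hy
    · intro ω h5 h6
      have := h4 ω h5 h6
      rwa [hc] at this
    · intro r hr x hx
      refine h6 r hr x fun y hy => hx y ?_
      simpa [hBdef] using hy
  choose R rs h1 h2 h3 h4 h5 h6 using key
  exact ⟨{ S := S, d := d, Fm := Fm, k := Fintype.card S + 2, enc := enc,
           enc_inj := fun t t' _ _ h => einj h, enc_ne := ene, R := R, R_dim := h1,
           R_tau := h2, R_ball := h3, R_code := h4, rs := rs, rs_tau := h5, rs_ball := h6 }, rfl, by simp, hG⟩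

/-- growth of the exponents -/
theorem exp_growth (k a b n : ℕ) (hk : 2 ≤ k) (ha : 2 ^ n ≤ a) (hab : 2 * a ≤ b) :
    (k * a - k * a / 2) + n < k * b - k * b / 2 := by
  have h1 : n < 2 ^ n := Nat.lt_two_pow_self
  have h2 : 2 * (k * a) ≤ k * b := by nlinarith
  have h3 : 2 * a ≤ k * a := Nat.mul_le_mul_right a hk
  omega

/-- everything about the projection `Q` -/
theorem core (hA2 : PartA2) (hB : PartB) (hC : PartC2) (hE : PartE) (hZ : PartZ) (hGS : PartGS)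
    (hF4 : PartF4) (hF5 : PartF5) (hF6 : PartF6) :
    ∃ (St : Setup) (φ : ℕ → St.Fm.P → ℝ) (Q : HH St.G →L[ℂ] HH St.G),
      EProps St ∧ ZProps St ∧ 2 ≤ St.k ∧ 1 ≤ (St.Fm.X 0).card ∧
      (∀ n, 2 * (St.Fm.X n).card ≤ (St.Fm.X (n + 1)).card) ∧
      (∀ n, ∑ y ∈ St.Fm.X n, φ n y ^ 2 = 1) ∧
      (∀ n, ‖iota (St.Bel φ n)‖ ^ 2 = ((Nat.card (St.Acopy n) : ℝ))⁻¹) ∧
      Q ∈ Cred St.G ∧ Q * Q = Q ∧ (∀ x y, inner ℂ (Q x) y = inner ℂ x (Q y)) ∧
      ∀ ξ : HH St.G, HasSum (fun n => ‖lamHat (St.Bel φ n) ξ‖ ^ 2) (inner ℂ (Q ξ) ξ).re := by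
  obtain ⟨d, h, cP, hd, hh, hcP, hB⟩ := hB
  obtain ⟨c0, L0, hc0, hc0P, hF6⟩ := hF6 d h cP hd hh hcP
  obtain ⟨K0, hC⟩ := hC
  obtain ⟨S, fS, Fm, hGood⟩ := hB (c0 / 2) (by linarith) L0 (max K0 1)
  obtain ⟨St, hSd, hk, hG⟩ := setup_of_good K0 hC d h cP (c0 / 2) L0 (max K0 1)
    (le_max_left _ _) S Fm hGood
  obtain ⟨M, hM⟩ := hA2 St.S St.Fm.toPG
  have hEP := hE St M hM
  obtain ⟨g⟩ := hGS St.S St.d St.Fm cP (c0 / 2) hcP (by linarith) hG.b3 hG.poin
  obtain ⟨f1, f2, f3, f4, f5, f6⟩ := hF5 St M hG.ball hEP cP (c0 / 2) g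
  have hineq := hF6 St hSd (max K0 1) (c0 / 2) hG M hEP g
  obtain ⟨Q, hQ1, hQ2, hQ3, hQ4⟩ := hF4 (HH St.G) (lamHat St.Tel)
    (fun n => lamHat (St.Bel g.φ n)) (fun n => lamHat (St.BelS g.φ n)) g.lm (c0 / 2) c0
    (Set.range (iota : MonoidAlgebra ℂ St.G → HH St.G)) f1 f2 g.lm_nonneg g.lm_le (by linarith)
    (fun n m hnm => by
      change lamHat (St.Bel g.φ n) * lamHat (St.BelS g.φ m) = 0
      rw [← map_mul, f3 n m hnm, map_zero])
    (fun n => by
      change lamHat (St.Bel g.φ n) * lamHat (St.BelS g.φ n) * lamHat (St.Bel g.φ n) = _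
      rw [← map_mul, ← map_mul, f4 n])
    (fun n => by
      change lamHat (St.Bel g.φ n) * lamHat St.Tel = _
      rw [← map_mul, f5 n, map_smul])
    iota_dense
    (by
      rintro _ ⟨x, rfl⟩
      obtain ⟨N, hN⟩ := hineq x
      refine ⟨N, ?_⟩
      simp only [lamHat_iota]
      exact hN)
  refine ⟨St, g.φ, Q, hEP, hZ St M hM, hk, (le_max_right K0 1).trans (hG.K0_le 0), hG.growth,
    g.norm, f6, ?_, hQ1, hQ2, hQ3⟩
  refine hQ4 (Cred St.G) cred_isClosed ?_ (fun a ha b hb => cred_mul ha hb) (lamHat_mem _)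
  have := lamHat_mem (1 : MonoidAlgebra ℂ St.G)
  rwa [map_one] at this

theorem irr_of_core (hIrr : PartIrr) (St : Setup) (φ : ℕ → St.Fm.P → ℝ)
    (Q : HH St.G →L[ℂ] HH St.G) (hEP : EProps St) (hk : 2 ≤ St.k) (h1 : 1 ≤ (St.Fm.X 0).card)
    (hg : ∀ n, 2 * (St.Fm.X n).card ≤ (St.Fm.X (n + 1)).card)
    (f6 : ∀ n, ‖iota (St.Bel φ n)‖ ^ 2 = ((Nat.card (St.Acopy n) : ℝ))⁻¹)
    (hQ3 : ∀ ξ : HH St.G, HasSum (fun n => ‖lamHat (St.Bel φ n) ξ‖ ^ 2) (inner ℂ (Q ξ) ξ).re) :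
    Irrational (inner ℂ (Q (dl 1)) (dl 1 : HH St.G)).re := by
  have h2 := hQ3 (dl 1)
  refine hIrr (fun n => St.k * (St.Fm.X n).card - St.k * (St.Fm.X n).card / 2) ?_ _ ?_
  · intro n
    refine exp_growth St.k _ _ n hk ?_ (hg n)
    induction n with
    | zero => exact h1
    | succ n ih =>
      have := hg n
      rw [pow_succ]
      omega
  · convert h2 using 2 with n
    have h3 : lamHat (St.Bel φ n) (dl 1) = iota (St.Bel φ n) := rfl
    rw [h3, f6 n, hEP.card n]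
    push_cast
    rfl

theorem counter (hA2 : PartA2) (hB : PartB) (hC : PartC2) (hE : PartE) (hZ : PartZ)
    (hGS : PartGS) (hF4 : PartF4) (hF5 : PartF5) (hF6 : PartF6) (hIrr : PartIrr)
    (hFG : PartFG) : Counter := by
  obtain ⟨St, φ, Q, hEP, -, hk, h1, hg, -, f6, hQC, hQ1, hQ2, hQ3⟩ :=
    core hA2 hB hC hE hZ hGS hF4 hF5 hF6
  exact ⟨St.G, inferInstance, hFG St, Q, hQC, hQ1, hQ2,
    irr_of_core hIrr St φ Q hEP hk h1 hg f6 hQ3⟩

/-- the projection with its delocalised traces at central involutions -/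
def Counter2 : Prop :=
  ∃ (G : Type) (_ : Group G), Group.FG G ∧ ∃ p ∈ Cred G, p * p = p ∧
    (∀ x y : HH G, inner ℂ (p x) y = inner ℂ x (p y)) ∧
    Irrational (inner ℂ (p (dl 1)) (dl 1 : HH G)).re ∧
    ∃ z : ℕ → G, Function.Injective z ∧ (∀ n, z n ≠ 1) ∧ (∀ n, z n * z n = 1) ∧
      (∀ n g, z n * g = g * z n) ∧ ∀ n, inner ℂ (p (dl 1)) (dl (z n) : HH G) ≠ 0

theorem deloc (hF7 : PartF7) (hF8 : PartF8) (St : Setup) (φ : ℕ → St.Fm.P → ℝ)
    (Q : HH St.G →L[ℂ] HH St.G) (hEP : EProps St) (hZP : ZProps St)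
    (hφ : ∀ n, ∑ y ∈ St.Fm.X n, φ n y ^ 2 = 1)
    (hQ2 : ∀ x y, inner ℂ (Q x) y = inner ℂ x (Q y))
    (hQ3 : ∀ ξ : HH St.G, HasSum (fun n => ‖lamHat (St.Bel φ n) ξ‖ ^ 2) (inner ℂ (Q ξ) ξ).re)
    (n : ℕ) : inner ℂ (Q (dl 1)) (dl (St.ofA (St.zc n)) : HH St.G) ≠ 0 := by
  set z : St.G := St.ofA (St.zc n) with hz
  set a : HH St.G := dl 1 with ha
  set b : HH St.G := dl z with hb
  have hBa : ∀ m, lamHat (St.Bel φ m) a = iota (St.Bel φ m) := fun m => rfl
  have hbz : b = iota (MonoidAlgebra.single z 1) := by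
    change dl z = lamHat (MonoidAlgebra.single z 1) (dl 1)
    rw [lamHat_single, one_smul, lam_dl, mul_one]
  have hBb : ∀ m, lamHat (St.Bel φ m) b = iota (St.Bel φ m * MonoidAlgebra.single z 1) :=
    fun m => by rw [hbz, lamHat_iota]
  have hnorm : ∀ m, ‖lamHat (St.Bel φ m) b‖ = ‖lamHat (St.Bel φ m) a‖ := fun m => by
    rw [hBb, hBa, hF8]
  have hin : ∀ m, (inner ℂ (lamHat (St.Bel φ m) a) (lamHat (St.Bel φ m) b)).re =
      if m = n then ((Nat.card (St.Acopy n) : ℝ))⁻¹ else 0 := by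
    intro m
    rw [hBa, hBb, hz, hF7 St hEP φ hφ (St.zc n) (fun γ => hZP.inv γ n) m]
    by_cases hmn : m = n
    · subst hmn
      rw [if_pos (hZP.mem m), if_pos rfl, hZP.tau m]
      have : Setup.sgn 0 = 1 := by simp [Setup.sgn]
      rw [this, mul_one]
      rw [← Complex.ofReal_natCast, ← Complex.ofReal_inv, Complex.ofReal_re]
    · rw [if_neg (hZP.not_mem n m (fun h => hmn h.symm)), if_neg hmn]
      rfl
  have hsab := hQ3 (a + b)
  have hsa := hQ3 a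
  have hsb := hQ3 b
  have hterm : ∀ m, ‖lamHat (St.Bel φ m) (a + b)‖ ^ 2 - ‖lamHat (St.Bel φ m) a‖ ^ 2 -
      ‖lamHat (St.Bel φ m) b‖ ^ 2 = if m = n then 2 * ((Nat.card (St.Acopy n) : ℝ))⁻¹ else 0 := by
    intro m
    rw [map_add, @norm_add_sq ℂ _ _ _ _]
    have h5 := hin m
    have h6 : RCLike.re (inner ℂ (lamHat (St.Bel φ m) a) (lamHat (St.Bel φ m) b)) =
      if m = n then ((Nat.card (St.Acopy n) : ℝ))⁻¹ else 0 := h5
    rw [h6]
    split_ifs <;> ring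
  have hsum := (hsab.sub hsa).sub hsb
  simp only [hterm] at hsum
  have hone := hasSum_ite_eq n (2 * ((Nat.card (St.Acopy n) : ℝ))⁻¹)
  have heq := hsum.unique hone
  have hexp : inner ℂ (Q (a + b)) (a + b) = inner ℂ (Q a) a + inner ℂ (Q a) b +
      (inner ℂ (Q b) a + inner ℂ (Q b) b) := by
    rw [map_add, inner_add_left, inner_add_right, inner_add_right]
  have hba : inner ℂ (Q b) a = (starRingEnd ℂ) (inner ℂ (Q a) b) := by
    rw [hQ2 b a, inner_conj_symm]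
  have hre : (inner ℂ (Q b) a).re = (inner ℂ (Q a) b).re := by
    rw [hba, Complex.conj_re]
  rw [hexp, Complex.add_re, Complex.add_re, Complex.add_re, hre] at heq
  have hcard : (0 : ℝ) < ((Nat.card (St.Acopy n) : ℝ))⁻¹ := by
    rw [hEP.card n]
    positivity
  intro h0
  rw [h0] at heq
  simp only [Complex.zero_re] at heq
  linarith

theorem counter2 (hA2 : PartA2) (hB : PartB) (hC : PartC2) (hE : PartE) (hZ : PartZ)
    (hGS : PartGS) (hF4 : PartF4) (hF5 : PartF5) (hF6 : PartF6) (hF7 : PartF7) (hF8 : PartF8)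
    (hIrr : PartIrr) (hFG : PartFG) : Counter2 := by
  obtain ⟨St, φ, Q, hEP, hZP, hk, h1, hg, hφ, f6, hQC, hQ1, hQ2, hQ3⟩ :=
    core hA2 hB hC hE hZ hGS hF4 hF5 hF6
  refine ⟨St.G, inferInstance, hFG St, Q, hQC, hQ1, hQ2,
    irr_of_core hIrr St φ Q hEP hk h1 hg f6 hQ3, fun n => St.ofA (St.zc n), ?_, ?_, ?_, ?_,
    deloc hF7 hF8 St φ Q hEP hZP hφ hQ2 hQ3⟩
  · intro n m hnm
    by_contra hne
    have h2 : St.zc n = St.zc m := by
      have := SemidirectProduct.inl_injective hnm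
      exact this
    exact hZP.not_mem n m hne (h2 ▸ hZP.mem m)
  · intro n h0
    refine hZP.ne_zero n ?_
    have h0' : St.ofA (St.zc n) = 1 := h0
    have h2 : Multiplicative.ofAdd (St.zc n) = Multiplicative.ofAdd (0 : St.A) := by
      refine SemidirectProduct.inl_injective (φ := St.phi) ?_
      exact h0'.trans (map_one _).symm
    exact h2
  · intro n
    change SemidirectProduct.inl (Multiplicative.ofAdd (St.zc n)) *
      SemidirectProduct.inl (Multiplicative.ofAdd (St.zc n)) = 1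
    rw [← map_mul, ← ofAdd_add]
    have h2 : St.zc n + St.zc n = 0 := by
      have h3 : ((1 : ZMod 2) + 1) • St.zc n = 0 := by
        have : (1 : ZMod 2) + 1 = 0 := by decide
        rw [this, zero_smul]
      rwa [add_smul, one_smul] at h3
    rw [h2]
    rfl
  · intro n g
    apply SemidirectProduct.ext
    · change Multiplicative.ofAdd (St.zc n) * St.phi 1 g.left =
        g.left * St.phi g.right (Multiplicative.ofAdd (St.zc n))
      have h3 : St.phi g.right (Multiplicative.ofAdd (St.zc n)) =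
          Multiplicative.ofAdd (St.actA g.right (St.zc n)) := rfl
      rw [h3, hZP.inv g.right n, map_one, MulAut.one_apply, mul_comm]
    · change 1 * g.right = g.right * 1
      rw [one_mul, mul_one]

end

end P089
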