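import Mathlib

/-!
# P089: left regular representation of a group, reduced group C*-algebra
-/

namespace P089

open scoped Classical

noncomputable section

variable (G : Type) [Group G]

/-- the Hilbert space `l^2(G)` -/
abbrev HH : Type := lp (fun _ : G => ℂ) 2

variable {G}

theorem memHH_comp (e : G ≃ G) (ξ : HH G) : Memℓp (fun h => ξ (e h)) 2 := by
  have hp : 0 < (2 : ENNReal).toReal := by norm_num
  have h1 : Summable fun i => ‖ξ i‖ ^ (2 : ENNReal).toReal := (lp.memℓp ξ).summable hp
  exact memℓp_gen (h1.comp_injective e.injective)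

theorem norm_comp (e : G ≃ G) (ξ : HH G) :
    ‖(⟨fun h => ξ (e h), memHH_comp e ξ⟩ : HH G)‖ = ‖ξ‖ := by
  have hp : 0 < (2 : ENNReal).toReal := by norm_num
  rw [lp.norm_eq_tsum_rpow hp, lp.norm_eq_tsum_rpow hp]
  congr 1
  exact Equiv.tsum_eq e fun i => ‖ξ i‖ ^ (2 : ENNReal).toReal

/-- left translation `(lam g ξ)(h) = ξ (g⁻¹ h)` -/
def lam (g : G) : HH G →L[ℂ] HH G :=
  LinearMap.mkContinuous
    { toFun := fun ξ => ⟨fun h => ξ (Equiv.mulLeft g⁻¹ h), memHH_comp (Equiv.mulLeft g⁻¹) ξ⟩
      map_add' := fun _ _ => rfl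
      map_smul' := fun _ _ => rfl } 1
    (fun ξ => by rw [one_mul]; exact (norm_comp (Equiv.mulLeft g⁻¹) ξ).le)

theorem lam_apply (g : G) (ξ : HH G) (h : G) : lam g ξ h = ξ (g⁻¹ * h) := rfl

/-- the basis vector -/
def dl (g : G) : HH G := lp.single 2 g (1 : ℂ)

/-- the left regular representation -/
def lamHom : G →* (HH G →L[ℂ] HH G) where
  toFun := lam
  map_one' := by
    ext ξ h
    rw [lam_apply, inv_one, one_mul]
    rfl
  map_mul' g g' := by
    ext ξ h
    rw [lam_apply]
    change _ = lam g (lam g' ξ) h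
    rw [lam_apply, lam_apply, mul_inv_rev, mul_assoc]

/-- the left regular representation of the group algebra -/
def lamHat : MonoidAlgebra ℂ G →ₐ[ℂ] (HH G →L[ℂ] HH G) := MonoidAlgebra.lift ℂ _ G lamHom

/-- the reduced group C*-algebra: norm closure of the span of the left translations -/
def Cred (G : Type) [Group G] : Submodule ℂ (HH G →L[ℂ] HH G) :=
  (Submodule.span ℂ (Set.range (lam : G → (HH G →L[ℂ] HH G)))).topologicalClosure

/-- embedding of the group algebra into `l^2(G)` -/
def iota : MonoidAlgebra ℂ G →ₗ[ℂ] HH G where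
  toFun ξ := lamHat ξ (dl 1)
  map_add' x y := by rw [map_add]; rfl
  map_smul' c x := by rw [map_smul]; rfl

theorem lam_dl (g h : G) : lam g (dl h) = dl (g * h) := by
  ext k
  rw [lam_apply]
  unfold dl
  rw [lp.single_apply, lp.single_apply]
  by_cases hk : g⁻¹ * k = h
  · have hk2 : k = g * h := by rw [← hk, mul_inv_cancel_left]
    rw [hk, Pi.single_eq_same, hk2, Pi.single_eq_same]
  · have hk2 : k ≠ g * h := by
      intro h2
      apply hk
      rw [h2, inv_mul_cancel_left]
    rw [Pi.single_eq_of_ne hk, Pi.single_eq_of_ne hk2]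

theorem lamHat_single (g : G) (c : ℂ) : lamHat (MonoidAlgebra.single g c) = c • lam g := by
  unfold lamHat
  rw [MonoidAlgebra.lift_single]
  rfl

theorem lamHat_iota (x y : MonoidAlgebra ℂ G) : lamHat x (iota y) = iota (x * y) := by
  change lamHat x (lamHat y (dl 1)) = lamHat (x * y) (dl 1)
  rw [map_mul]
  rfl

private theorem Reg_single (g : G) (c : ℂ) :
    iota (MonoidAlgebra.single g c) = c • (dl g : HH G) := by
  change lamHat (MonoidAlgebra.single g c) (dl 1) = c • dl g
  rw [lamHat_single, smul_apply, lam_dl, mul_one]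

theorem iota_apply (x : MonoidAlgebra ℂ G) (g : G) : iota x g = x.coeff g := by
  induction x using MonoidAlgebra.induction_linear with
  | zero =>
    rw [map_zero]
    rfl
  | add f h hf hh =>
    rw [map_add, lp.coeFn_add, Pi.add_apply, hf, hh]
    rfl
  | single k r =>
    rw [Reg_single, lp.coeFn_smul, Pi.smul_apply]
    unfold dl
    rw [lp.single_apply, MonoidAlgebra.coeff_single, smul_eq_mul]
    by_cases hk : g = k
    · rw [hk, Pi.single_eq_same, Finsupp.single_eq_same, mul_one]
    · rw [Pi.single_eq_of_ne hk, Finsupp.single_eq_of_ne hk, mul_zero]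

theorem iota_dense : DenseRange (iota : MonoidAlgebra ℂ G → HH G) := by
  intro ξ
  have h1 : HasSum (fun i => lp.single 2 i (ξ i) : G → HH G) ξ :=
    lp.hasSum_single (by norm_num) ξ
  refine mem_closure_of_tendsto h1 (Filter.Eventually.of_forall fun s => ?_)
  refine ⟨∑ i ∈ s, MonoidAlgebra.single i (ξ i), ?_⟩
  rw [map_sum]
  refine Finset.sum_congr rfl fun i _ => ?_
  rw [Reg_single]
  ext k
  unfold dl
  rw [lp.coeFn_smul, Pi.smul_apply, lp.single_apply, lp.single_apply, smul_eq_mul]
  by_cases hk : k = i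
  · rw [hk, Pi.single_eq_same, Pi.single_eq_same, mul_one]
  · rw [Pi.single_eq_of_ne hk, Pi.single_eq_of_ne hk, mul_zero]

theorem inner_iota (x y : MonoidAlgebra ℂ G) :
    inner ℂ (iota x) (iota y) = ∑ g ∈ x.coeff.support, (starRingEnd ℂ) (x.coeff g) * y.coeff g := by
  rw [lp.inner_eq_tsum]
  have h1 : ∀ g, inner ℂ (iota x g) (iota y g) =
      (starRingEnd ℂ) (x.coeff g) * y.coeff g := by
    intro g
    rw [iota_apply, iota_apply, RCLike.inner_apply, mul_comm]
  rw [tsum_congr h1]
  refine tsum_eq_sum fun g hg => ?_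
  rw [Finsupp.notMem_support_iff.1 hg, map_zero, zero_mul]

theorem lam_adjoint (g : G) : ContinuousLinearMap.adjoint (lam g) = lam g⁻¹ := by
  symm
  rw [ContinuousLinearMap.eq_adjoint_iff]
  intro ξ η
  rw [lp.inner_eq_tsum, lp.inner_eq_tsum, ← Equiv.tsum_eq (Equiv.mulLeft g)
    (fun h => inner ℂ (ξ h) (lam g η h))]
  refine tsum_congr fun h => ?_
  rw [Equiv.coe_mulLeft, lam_apply, lam_apply, inv_inv, inv_mul_cancel_left]

private theorem Reg_span (x : MonoidAlgebra ℂ G) :
    lamHat x ∈ Submodule.span ℂ (Set.range (lam : G → (HH G →L[ℂ] HH G))) := by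
  induction x using MonoidAlgebra.induction_linear with
  | zero =>
    rw [map_zero]
    exact Submodule.zero_mem _
  | add f h hf hh =>
    rw [map_add]
    exact Submodule.add_mem _ hf hh
  | single k r =>
    rw [lamHat_single]
    exact Submodule.smul_mem _ _ (Submodule.subset_span ⟨k, rfl⟩)

private theorem Reg_range (a : HH G →L[ℂ] HH G)
    (ha : a ∈ Submodule.span ℂ (Set.range (lam : G → (HH G →L[ℂ] HH G)))) :
    ∃ x : MonoidAlgebra ℂ G, lamHat x = a := by
  induction ha using Submodule.span_induction with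
  | mem a ha =>
    obtain ⟨g, rfl⟩ := ha
    exact ⟨MonoidAlgebra.single g 1, by rw [lamHat_single, one_smul]⟩
  | zero => exact ⟨0, map_zero _⟩
  | add a b _ _ ha hb =>
    obtain ⟨x, rfl⟩ := ha
    obtain ⟨y, rfl⟩ := hb
    exact ⟨x + y, map_add _ _ _⟩
  | smul c a _ ha =>
    obtain ⟨x, rfl⟩ := ha
    exact ⟨c • x, map_smul _ _ _⟩

theorem lamHat_mem (x : MonoidAlgebra ℂ G) : lamHat x ∈ Cred G :=
  Submodule.le_topologicalClosure _ (Reg_span x)

theorem cred_mul {a b : HH G →L[ℂ] HH G} (ha : a ∈ Cred G) (hb : b ∈ Cred G) :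
    a * b ∈ Cred G := by
  have ha' : a ∈ closure (Submodule.span ℂ (Set.range (lam : G → (HH G →L[ℂ] HH G))) :
      Set (HH G →L[ℂ] HH G)) := ha
  have hb' : b ∈ closure (Submodule.span ℂ (Set.range (lam : G → (HH G →L[ℂ] HH G))) :
      Set (HH G →L[ℂ] HH G)) := hb
  refine map_mem_closure₂ (f := fun a b : HH G →L[ℂ] HH G => a * b) continuous_mul ha' hb' ?_
  intro a ha b hb
  obtain ⟨x, rfl⟩ := Reg_range a ha
  obtain ⟨y, rfl⟩ := Reg_range b hb
  rw [← map_mul]
  exact Reg_span _

theorem cred_isClosed : IsClosed (Cred G : Set (HH G →L[ℂ] HH G)) :=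
  Submodule.isClosed_topologicalClosure _

end

end P089
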