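import Vale.Agent.Lib.P089.GDefs
import Vale.Agent.Lib.P089.Reg

/-!
# P089: interface of the parts E, F (see PROOF.md)
-/

namespace P089

open scoped Classical

noncomputable section

/-- ground states of the finite graphs `X n` with Dirichlet defect -/
structure GS {S : Type} [Fintype S] {d : ℕ} (Fm : Fam S d) (cP ε : ℝ) where
  φ : ℕ → Fm.P → ℝ
  lm : ℕ → ℝ
  lm_nonneg : ∀ n, 0 ≤ lm n
  lm_le : ∀ n, lm n ≤ ε
  supp : ∀ n y, y ∉ Fm.X n → φ n y = 0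
  norm : ∀ n, ∑ y ∈ Fm.X n, φ n y ^ 2 = 1
  eig : ∀ n, ∀ y ∈ Fm.X n, (d : ℝ) * φ n y - ∑ s, Fm.nbv (φ n) y s = lm n * φ n y
  gap : ∀ n (f : Fm.P → ℝ),
    cP * (∑ y ∈ Fm.X n, f y ^ 2 - (∑ y ∈ Fm.X n, φ n y * f y) ^ 2) ≤
      ∑ y ∈ Fm.X n, (d * f y ^ 2 - ∑ s, f y * Fm.nbv f y s)

/-- existence of the ground states -/
def PartGS : Prop :=
  ∀ (S : Type) [Fintype S] (d : ℕ) (Fm : Fam S d) (cP ε : ℝ), 0 < cP → ε < cP →
    Fm.B3 ε → Fm.Poin cP → Nonempty (GS Fm cP ε)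

/-- (E3) two active copies are disjoint -/
def PartE3 : Prop :=
  ∀ (S : Type) [Fintype S] (d : ℕ) (Fm : Fam S d) (V : Type) (act : V → S → V),
    Model Fm.toPG V act → Fm.Ball → ∀ ω : V → Option (Finset S), ∀ v x y,
      Active Fm.toPG act ω v x → Active Fm.toPG act ω v y → x = y

/-- Part E: algebra of the relation module -/
structure EProps (St : Setup) : Prop where
  /-- (E1) peeling -/
  rel_mem : ∀ (γ : St.Gm) (n : ℕ) (r), St.relEl γ n r ∈ St.N ↔ r ∈ St.R n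
  walk_pos : ∀ (n : ℕ) (y : St.Fm.P) (w : List St.S) (z : St.Fm.P), y ∈ St.Fm.X n →
    walk St.Fm.nb y w = some z → St.pos n y * wd _ w = St.pos n z
  pos_inj : ∀ n, ∀ y ∈ St.Fm.X n, ∀ z ∈ St.Fm.X n, St.pos n y = St.pos n z → y = z
  /-- active copies through the base -/
  active_iff : ∀ (ω : St.Gm → Option (Finset St.S)) (γ : St.Gm) (n : ℕ), ∀ y ∈ St.Fm.X n,
    (Active St.Fm.toPG (cay _) ω (γ * St.pos n y) y ↔
      ∀ z ∈ St.Fm.X n, ω (γ * St.pos n z) = some (St.Fm.ty z))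
  /-- (E2) -/
  legal : ∀ χ, Legal St.Fm (cay _) (St.om χ)
  /-- (E4) -/
  isTau : ∀ n, ∃ th, St.IsTau n th
  fin : ∀ n, Finite (St.Acopy n)
  card : ∀ n, Nat.card (St.Acopy n) =
    2 ^ (St.k * (St.Fm.X n).card - St.k * (St.Fm.X n).card / 2)
  /-- (E5) -/
  tau_iff : ∀ (χ : St.A →ₗ[ZMod 2] ZMod 2) (γ : St.Gm) (n : ℕ),
    (∀ z ∈ St.Fm.X n, St.om χ (γ * St.pos n z) = some (St.Fm.ty z)) ↔
      ∀ a ∈ St.Acopy n, χ (St.actA γ a) = St.tau n a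

def PartE : Prop :=
  ∀ (St : Setup) (M : Model St.Fm.toPG St.Gm (cay _)), M.base = 1 → EProps St

/-- the central involutions `zc n` -/
structure ZProps (St : Setup) : Prop where
  inv : ∀ γ n, St.actA γ (St.zc n) = St.zc n
  mem : ∀ n, St.zc n ∈ St.Acopy n
  tau : ∀ n, St.tau n (St.zc n) = 0
  ne_zero : ∀ n, St.zc n ≠ 0
  not_mem : ∀ n m, n ≠ m → St.zc n ∉ St.Acopy m

def PartZ : Prop :=
  ∀ (St : Setup) (M : Model St.Fm.toPG St.Gm (cay _)), M.base = 1 → ZProps St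

/-- Part C2: codes with one more relation -/
def PartC2 : Prop :=
  ∃ K0 : ℕ, ∀ (k : ℕ), 2 ≤ k → ∀ (X : Type) [Fintype X], K0 ≤ Fintype.card X →
    ∀ τ : X → Fin k → ZMod 2, (∀ x, τ x ≠ 0) → ∀ B : X → Finset X,
      (∀ x, 8 * (B x).card ≤ Fintype.card X) →
      ∃ (R : Submodule (ZMod 2) (X → Fin k → ZMod 2)) (rs : X → Fin k → ZMod 2),
        Module.finrank (ZMod 2) R = k * Fintype.card X / 2 ∧
        (∀ r ∈ R, ∑ x, ∑ i, r x i * τ x i = 0) ∧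
        (∀ r ∈ R, ∀ x, (∀ y, y ∉ B x → r y = 0) → r = 0) ∧
        (∀ ω : X → Fin k → ZMod 2, (∀ r ∈ R, ∑ x, ∑ i, r x i * ω x i = 0) → ω ≠ 0 →
          Fintype.card X ≤ 10 * (Finset.univ.filter fun x => ω x ≠ 0).card) ∧
        (∑ x, ∑ i, rs x i * τ x i = 0) ∧
        (∀ r ∈ R, ∀ x, ¬ ∀ y, y ∉ B x → (rs + r) y = 0)

/-! ### Fourier transform in the `A`-direction -/

namespace Setup

variable (St : Setup)

theorem sgn_add (a b : ZMod 2) : sgn (a + b) = sgn a * sgn b := by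
  have h10 : (1 : ZMod 2) ≠ 0 := by decide
  have h11 : (1 : ZMod 2) + 1 = 0 := by decide
  have key : ∀ a : ZMod 2, a = 0 ∨ a = 1 := by decide
  rcases key a with rfl | rfl <;> rcases key b with rfl | rfl <;> simp [sgn, h11]

theorem actA_one (a : St.A) : St.actA 1 a = a := by
  obtain ⟨u, rfl⟩ := Submodule.Quotient.mk_surjective _ a
  rw [actA_mk, shift_one]

theorem actA_mul (γ δ : St.Gm) (a : St.A) : St.actA (γ * δ) a = St.actA γ (St.actA δ a) := by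
  obtain ⟨u, rfl⟩ := Submodule.Quotient.mk_surjective _ a
  rw [actA_mk, actA_mk, actA_mk, shift_mul]

/-- covariant representation at `χ` -/
def rhoHom (χ : St.A →ₗ[ZMod 2] ZMod 2) : St.G →* Module.End ℂ (St.Gm → ℂ) where
  toFun g :=
    { toFun := fun f v => sgn (χ (St.actA v (Multiplicative.toAdd g.left))) * f (v * g.right)
      map_add' := fun f f' => by
        funext v
        exact mul_add _ _ _
      map_smul' := fun c f => by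
        funext v
        change _ * (c * _) = c * (_ * _)
        ring }
  map_one' := by
    refine LinearMap.ext fun f => funext fun v => ?_
    change sgn (χ (St.actA v 0)) * f (v * 1) = f v
    rw [map_zero, map_zero, mul_one]
    simp [sgn]
  map_mul' g g' := by
    refine LinearMap.ext fun f => funext fun v => ?_
    change sgn (χ (St.actA v (Multiplicative.toAdd g.left +
      St.actA g.right (Multiplicative.toAdd g'.left)))) * f (v * (g.right * g'.right)) =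
      sgn (χ (St.actA v (Multiplicative.toAdd g.left))) *
        (sgn (χ (St.actA (v * g.right) (Multiplicative.toAdd g'.left))) *
          f (v * g.right * g'.right))
    rw [map_add, map_add, sgn_add, actA_mul, mul_assoc, mul_assoc]

/-- covariant representation of the group algebra at `χ` -/
def rho (χ : St.A →ₗ[ZMod 2] ZMod 2) : MonoidAlgebra ℂ St.G →ₐ[ℂ] Module.End ℂ (St.Gm → ℂ) :=
  MonoidAlgebra.lift ℂ _ St.G (St.rhoHom χ)

/-- transform of an element of the group algebra -/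
def hat (χ : St.A →ₗ[ZMod 2] ZMod 2) (x : MonoidAlgebra ℂ St.G) : St.Gm → ℂ :=
  St.rho χ x (Pi.single 1 1)

/-- the adjoint of `Bel` -/
def BelS (φ : ℕ → St.Fm.P → ℝ) (n : ℕ) : MonoidAlgebra ℂ St.G :=
  ∑ y ∈ St.Fm.X n, ((φ n y : ℝ) : ℂ) • (MonoidAlgebra.single (St.ofG (St.pos n y)⁻¹) 1 * St.Eel n)

/-- the quadratic form of `T` at the configuration `ω` -/
def EE {V S : Type} [Fintype S] (d : ℕ) (act : V → S → V) (ω : V → Option (Finset S))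
    (f : V →₀ ℝ) : ℝ :=
  ∑ v ∈ f.support, ((if (ω v).isSome then (d : ℝ) else 1) * f v ^ 2 -
    ∑ s, if link act ω v s then f v * f (act v s) else 0)

/-- the quadratic form of `B_n^* B_n` at the configuration `ω` -/
def PP (φ : ℕ → St.Fm.P → ℝ) (n : ℕ) (ω : St.Gm → Option (Finset St.S))
    (f : St.Gm →₀ ℝ) : ℝ :=
  ∑ᶠ v : St.Gm, if (∀ z ∈ St.Fm.X n, ω (v * St.pos n z) = some (St.Fm.ty z)) then
    (∑ y ∈ St.Fm.X n, φ n y * f (v * St.pos n y)) ^ 2 else 0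

end Setup

/-- F1: Parseval and support of the transform -/
def PartF1 : Prop :=
  ∀ St : Setup,
    (∀ χ x, {v | St.hat χ x v ≠ 0}.Finite ∧
      {v | St.hat χ x v ≠ 0}.ncard ≤ x.coeff.support.card) ∧
    ∀ Xs : Finset (MonoidAlgebra ℂ St.G), ∃ C : Finset (St.A →ₗ[ZMod 2] ZMod 2), C.Nonempty ∧
      ∀ x ∈ Xs, ∀ y ∈ Xs, (C.card : ℂ) * inner ℂ (iota x) (iota y) =
        ∑ χ ∈ C, ∑ᶠ v, (starRingEnd ℂ) (St.hat χ x v) * St.hat χ y v

/-- F2: the operators at `χ` -/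
def PartF2 : Prop :=
  ∀ St : Setup, EProps St → ∀ (χ : St.A →ₗ[ZMod 2] ZMod 2) (f : St.Gm → ℂ) (v : St.Gm),
    (St.rho χ St.Tel f v = (if (St.om χ v).isSome then (St.d : ℂ) else 1) * f v -
      ∑ s, if link (cay _) (St.om χ) v s then f (cay _ v s) else 0) ∧
    ∀ (φ : ℕ → St.Fm.P → ℝ) (n : ℕ),
    (St.rho χ (St.Bel φ n) f v =
      if (∀ z ∈ St.Fm.X n, St.om χ (v * St.pos n z) = some (St.Fm.ty z)) then
        ∑ y ∈ St.Fm.X n, ((φ n y : ℝ) : ℂ) * f (v * St.pos n y) else 0) ∧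
    (St.rho χ (St.BelS φ n) f v =
      ∑ y ∈ St.Fm.X n, ((φ n y : ℝ) : ℂ) *
        if (∀ z ∈ St.Fm.X n, St.om χ (v * (St.pos n y)⁻¹ * St.pos n z) = some (St.Fm.ty z)) then
          f (v * (St.pos n y)⁻¹) else 0)

/-- F3: the local inequality -/
def PartF3 : Prop :=
  ∀ (d : ℕ) (h cP : ℝ), 3 ≤ d → 0 < h → 0 < cP → ∃ (c0 : ℝ) (L0 : ℕ), 0 < c0 ∧ c0 ≤ cP ∧
    ∀ (St : Setup), St.d = d → ∀ (K0 : ℕ) (ε : ℝ), St.Fm.Good h cP ε L0 K0 →
      Model St.Fm.toPG St.Gm (cay _) → EProps St → ∀ g : GS St.Fm cP ε, ∀ K : ℕ, ∃ N : ℕ,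
        ∀ (χ : St.A →ₗ[ZMod 2] ZMod 2) (f : St.Gm →₀ ℝ), f.support.card ≤ K →
          c0 * (∑ v ∈ f.support, f v ^ 2 - ∑ n ∈ Finset.range N, St.PP g.φ n (St.om χ) f) ≤
            Setup.EE St.d (cay _) (St.om χ) f

/-- F4: the abstract lemma -/
def PartF4 : Prop :=
  ∀ (H : Type) [NormedAddCommGroup H] [InnerProductSpace ℂ H] [CompleteSpace H]
    (T : H →L[ℂ] H) (B Bs : ℕ → H →L[ℂ] H) (lm : ℕ → ℝ) (ε c0 : ℝ) (D : Set H),
    (∀ x y, inner ℂ (T x) y = inner ℂ x (T y)) →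
    (∀ n x y, inner ℂ (B n x) y = inner ℂ x (Bs n y)) →
    (∀ n, 0 ≤ lm n) → (∀ n, lm n ≤ ε) → ε < c0 →
    (∀ n m, n ≠ m → B n * Bs m = 0) → (∀ n, B n * Bs n * B n = B n) →
    (∀ n, B n * T = (lm n : ℂ) • B n) → Dense D →
    (∀ ξ ∈ D, ∃ N : ℕ, c0 * (‖ξ‖ ^ 2 - ∑ n ∈ Finset.range N, ‖B n ξ‖ ^ 2) ≤
      (inner ℂ (T ξ) ξ).re) →
    ∃ Q : H →L[ℂ] H, Q * Q = Q ∧ (∀ x y, inner ℂ (Q x) y = inner ℂ x (Q y)) ∧
      (∀ ξ, HasSum (fun n => ‖B n ξ‖ ^ 2) (inner ℂ (Q ξ) ξ).re) ∧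
      ∀ Al : Submodule ℂ (H →L[ℂ] H), IsClosed (Al : Set (H →L[ℂ] H)) → 1 ∈ Al →
        (∀ a ∈ Al, ∀ b ∈ Al, a * b ∈ Al) → T ∈ Al → Q ∈ Al

/-- F5: algebraic identities -/
def PartF5 : Prop :=
  ∀ St : Setup, Model St.Fm.toPG St.Gm (cay _) → St.Fm.Ball → EProps St →
    ∀ (cP ε : ℝ) (g : GS St.Fm cP ε),
    (∀ x y : HH St.G, inner ℂ (lamHat St.Tel x) y = inner ℂ x (lamHat St.Tel y)) ∧
    (∀ n, ∀ x y : HH St.G,
      inner ℂ (lamHat (St.Bel g.φ n) x) y = inner ℂ x (lamHat (St.BelS g.φ n) y)) ∧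
    (∀ n m, n ≠ m → St.Bel g.φ n * St.BelS g.φ m = 0) ∧
    (∀ n, St.Bel g.φ n * St.BelS g.φ n * St.Bel g.φ n = St.Bel g.φ n) ∧
    (∀ n, St.Bel g.φ n * St.Tel = ((g.lm n : ℝ) : ℂ) • St.Bel g.φ n) ∧
    ∀ n, ‖iota (St.Bel g.φ n)‖ ^ 2 = ((Nat.card (St.Acopy n) : ℝ))⁻¹

/-- F6: the inequality on finitely supported vectors -/
def PartF6 : Prop :=
  ∀ (d : ℕ) (h cP : ℝ), 3 ≤ d → 0 < h → 0 < cP → ∃ (c0 : ℝ) (L0 : ℕ), 0 < c0 ∧ c0 ≤ cP ∧
    ∀ (St : Setup), St.d = d → ∀ (K0 : ℕ) (ε : ℝ), St.Fm.Good h cP ε L0 K0 →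
      Model St.Fm.toPG St.Gm (cay _) → EProps St → ∀ g : GS St.Fm cP ε,
        ∀ x : MonoidAlgebra ℂ St.G, ∃ N : ℕ,
          c0 * (‖iota x‖ ^ 2 - ∑ n ∈ Finset.range N, ‖iota (St.Bel g.φ n * x)‖ ^ 2) ≤
            (inner ℂ (iota (St.Tel * x)) (iota x)).re

/-- lacunary binary series are irrational -/
def PartIrr : Prop :=
  ∀ (e : ℕ → ℕ), (∀ n, e n + n < e (n + 1)) → ∀ t : ℝ,
    HasSum (fun n => ((2 : ℝ) ^ e n)⁻¹) t → Irrational t

/-- the group is finitely generated -/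
def PartFG : Prop := ∀ St : Setup, Group.FG St.G

end

end P089
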