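import Vale.Agent.Lib.P089.Interface2

/-!
# P089: the group `G` is finitely generated
-/

namespace P089

open scoped Classical

private theorem FGP_ofA_act (St : Setup) (γ : St.Gm) (a : St.A) :
    St.ofA (St.actA γ a) = St.ofG γ * St.ofA a * (St.ofG γ)⁻¹ := by
  have h := SemidirectProduct.inl_aut (φ := St.phi) γ (Multiplicative.ofAdd a)
  change SemidirectProduct.inl (St.phi γ (Multiplicative.ofAdd a)) = _
  rw [h, map_inv]
  rfl

private theorem FGP_add (St : Setup) (a b : St.A) :
    St.ofA (a + b) = St.ofA a * St.ofA b :=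
  map_mul SemidirectProduct.inl (Multiplicative.ofAdd a) (Multiplicative.ofAdd b)

private theorem FGP_neg (St : Setup) (a : St.A) : St.ofA (-a) = (St.ofA a)⁻¹ :=
  map_inv SemidirectProduct.inl (Multiplicative.ofAdd a)

theorem partFG : PartFG := by
  intro St
  rw [Group.fg_iff]
  refine ⟨Set.range (fun s : St.S => St.ofG (gen _ s)) ∪
    Set.range (fun i : Fin St.k => St.ofA (St.beta (Pi.single i 1))), ?_,
    (Set.finite_range _).union (Set.finite_range _)⟩
  set H : Subgroup St.G := Subgroup.closure (Set.range (fun s : St.S => St.ofG (gen _ s)) ∪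
    Set.range (fun i : Fin St.k => St.ofA (St.beta (Pi.single i 1)))) with hH
  -- elements of `Gam`
  have hG : ∀ γ : St.Gm, St.ofG γ ∈ H := by
    have h1 : (⊤ : Subgroup St.Gm) ≤ H.comap (SemidirectProduct.inr : St.Gm →* St.G) := by
      rw [← PresentedGroup.closure_range_of (rel St.Fm.toPG), Subgroup.closure_le]
      rintro _ ⟨s, rfl⟩
      exact Subgroup.subset_closure (Or.inl ⟨s, rfl⟩)
    intro γ
    exact h1 (Subgroup.mem_top γ)
  -- elements of `A`
  let K : AddSubgroup St.A :=
    { carrier := {a | St.ofA a ∈ H}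
      zero_mem' := H.one_mem
      add_mem' := fun {a b} ha hb => by
        change St.ofA (a + b) ∈ H
        rw [FGP_add]
        exact H.mul_mem ha hb
      neg_mem' := fun {a} ha => by
        change St.ofA (-a) ∈ H
        rw [FGP_neg]
        exact H.inv_mem ha }
  have hbeta : ∀ x : Fin St.k → ZMod 2, St.beta x ∈ K := by
    intro x
    have h1 : St.beta x = ∑ i, St.beta (Pi.single i (x i)) := by
      have h2 : ∀ y : Fin St.k → ZMod 2,
          St.beta y = (St.N.mkQ ∘ₗ Finsupp.lsingle (1 : St.Gm)) y := fun _ => rfl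
      rw [h2, Finset.sum_congr rfl fun i _ => h2 (Pi.single i (x i)), ← map_sum,
        Finset.univ_sum_single x]
    rw [h1]
    refine K.sum_mem fun i _ => ?_
    have key : ∀ c : ZMod 2, c = 0 ∨ c = 1 := by decide
    rcases key (x i) with h | h
    · rw [h, Pi.single_zero]
      have h3 : St.beta 0 = 0 := by
        change (St.N.mkQ ∘ₗ Finsupp.lsingle (1 : St.Gm)) 0 = 0
        rw [map_zero]
      rw [h3]
      exact K.zero_mem
    · rw [h]
      exact Subgroup.subset_closure (Or.inr ⟨i, rfl⟩)
  have hA : ∀ a : St.A, St.ofA a ∈ H := by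
    intro a
    obtain ⟨u, rfl⟩ := Submodule.Quotient.mk_surjective _ a
    change Submodule.Quotient.mk u ∈ K
    induction u using Finsupp.induction_linear with
    | zero => exact K.zero_mem
    | add f g hf hg => exact K.add_mem hf hg
    | single γ x =>
      have h1 : (Submodule.Quotient.mk (Finsupp.single γ x) : St.A) = St.actA γ (St.beta x) := by
        change _ = St.actA γ (Submodule.Quotient.mk (Finsupp.single 1 x))
        rw [Setup.actA_mk, Setup.shift_single, mul_one]
      rw [h1]
      change St.ofA (St.actA γ (St.beta x)) ∈ H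
      rw [FGP_ofA_act]
      exact H.mul_mem (H.mul_mem (hG γ) (hbeta x)) (H.inv_mem (hG γ))
  rw [eq_top_iff]
  intro g _
  rw [← SemidirectProduct.inl_left_mul_inr_right g]
  exact H.mul_mem (hA (Multiplicative.toAdd g.left)) (hG g.right)

end P089
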