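import Vale.Agent.Lib.P089.Interface2

/-!
# P089: ground states of the finite graphs
-/

namespace P089

open scoped Classical

noncomputable section

variable {S : Type} [Fintype S] {d : ℕ} (Fm : Fam S d)

/-- the neighbour, or the point itself -/
private def gstep (x : Fm.P) (s : S) : Fm.P := (Fm.nb x s).getD x

private theorem GSP_nbv (F : Fm.P → ℝ) (x : Fm.P) (s : S) :
    Fm.nbv F x s = if (Fm.nb x s).isSome then F (gstep Fm x s) else 0 := by
  unfold PG.nbv gstep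
  cases h : Fm.nb x s with
  | none => simp
  | some y => simp

private theorem GSP_some (x : Fm.P) (s : S) (h : (Fm.nb x s).isSome) :
    Fm.nb x s = some (gstep Fm x s) := by
  unfold gstep
  cases h' : Fm.nb x s with
  | none => rw [h'] at h; exact absurd h (by simp)
  | some y => simp

private theorem GSP_none (x : Fm.P) (s : S) (h : ¬ (Fm.nb x s).isSome) : gstep Fm x s = x := by
  unfold gstep
  cases h' : Fm.nb x s with
  | none => simp
  | some y => rw [h'] at h; exact absurd (by simp) h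

private theorem GSP_isSome (x : Fm.P) (s : S) :
    (Fm.nb (gstep Fm x s) s).isSome ↔ (Fm.nb x s).isSome := by
  by_cases h : (Fm.nb x s).isSome
  · have h1 := Fm.symm x s _ (GSP_some Fm x s h)
    rw [h1]
    simp [h]
  · rw [GSP_none Fm x s h]

private theorem GSP_inv (x : Fm.P) (s : S) : gstep Fm (gstep Fm x s) s = x := by
  by_cases h : (Fm.nb x s).isSome
  · have h1 := Fm.symm x s _ (GSP_some Fm x s h)
    have h2 : gstep Fm (gstep Fm x s) s = x := by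
      conv_lhs => unfold gstep
      have h3 : Fm.nb ((Fm.nb x s).getD x) s = some x := h1
      rw [h3]
      rfl
    exact h2
  · rw [GSP_none Fm x s h, GSP_none Fm x s h]

private theorem GSP_mem {n : ℕ} {x : Fm.P} (hx : x ∈ Fm.X n) (s : S) : gstep Fm x s ∈ Fm.X n := by
  by_cases h : (Fm.nb x s).isSome
  · have h1 := GSP_some Fm x s h
    have h2 : Fm.idx x = Fm.idx (gstep Fm x s) := by
      rw [Fm.conn]
      refine ⟨[s], ?_⟩
      simp only [walk]
      rw [h1]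
      rfl
    rw [Fm.memX] at hx ⊢
    rw [← h2, hx]
  · rw [GSP_none Fm x s h]
    exact hx

/-- reindexing by the involution -/
private theorem GSP_sum (n : ℕ) (s : S) (F : Fm.P → ℝ) :
    ∑ x ∈ Fm.X n, F (gstep Fm x s) = ∑ x ∈ Fm.X n, F x := by
  refine Finset.sum_nbij' (fun x => gstep Fm x s) (fun x => gstep Fm x s)
    (fun x hx => GSP_mem Fm hx s) (fun x hx => GSP_mem Fm hx s)
    (fun x _ => GSP_inv Fm x s) (fun x _ => GSP_inv Fm x s) (fun x _ => rfl)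

/-- the bilinear form -/
private def gB (n : ℕ) (F G : Fm.P → ℝ) : ℝ :=
  ∑ x ∈ Fm.X n, (d * F x * G x - ∑ s, G x * Fm.nbv F x s)

private theorem GSP_symm1 (n : ℕ) (F G : Fm.P → ℝ) :
    ∑ x ∈ Fm.X n, ∑ s, G x * Fm.nbv F x s = ∑ x ∈ Fm.X n, ∑ s, F x * Fm.nbv G x s := by
  rw [Finset.sum_comm, Finset.sum_comm (s := Fm.X n)]
  refine Finset.sum_congr rfl fun s _ => ?_
  have h1 := GSP_sum Fm n s (fun x => F x * Fm.nbv G x s)
  rw [← h1]
  refine Finset.sum_congr rfl fun x _ => ?_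
  rw [GSP_nbv, GSP_nbv, GSP_inv]
  by_cases h : (Fm.nb x s).isSome
  · rw [if_pos h, if_pos ((GSP_isSome Fm x s).2 h)]
    ring
  · rw [if_neg h, if_neg (fun h' => h ((GSP_isSome Fm x s).1 h')), mul_zero, mul_zero]

private theorem GSP_symm (n : ℕ) (F G : Fm.P → ℝ) : gB Fm n F G = gB Fm n G F := by
  unfold gB
  rw [Finset.sum_sub_distrib, Finset.sum_sub_distrib, GSP_symm1]
  congr 1
  refine Finset.sum_congr rfl fun x _ => ?_
  ring

private theorem GSP_lin (n : ℕ) (a b : ℝ) (F F' G : Fm.P → ℝ) :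
    gB Fm n (fun x => a * F x + b * F' x) G = a * gB Fm n F G + b * gB Fm n F' G := by
  unfold gB
  rw [Finset.mul_sum, Finset.mul_sum, ← Finset.sum_add_distrib]
  refine Finset.sum_congr rfl fun x _ => ?_
  have h : ∀ s, Fm.nbv (fun x => a * F x + b * F' x) x s = a * Fm.nbv F x s + b * Fm.nbv F' x s := by
    intro s
    rw [GSP_nbv, GSP_nbv, GSP_nbv]
    split_ifs <;> simp
  have h2 : ∑ s, G x * Fm.nbv (fun x => a * F x + b * F' x) x s =
      a * ∑ s, G x * Fm.nbv F x s + b * ∑ s, G x * Fm.nbv F' x s := by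
    rw [Finset.mul_sum, Finset.mul_sum, ← Finset.sum_add_distrib]
    refine Finset.sum_congr rfl fun s _ => ?_
    rw [h]
    ring
  rw [h2]
  ring

private theorem GSP_quad (n : ℕ) (a b : ℝ) (F F' : Fm.P → ℝ) :
    gB Fm n (fun x => a * F x + b * F' x) (fun x => a * F x + b * F' x) =
      a ^ 2 * gB Fm n F F + 2 * a * b * gB Fm n F F' + b ^ 2 * gB Fm n F' F' := by
  rw [GSP_lin, GSP_symm Fm n F, GSP_symm Fm n F', GSP_lin, GSP_lin, GSP_symm Fm n F' F]
  ring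

private theorem GSP_form (n : ℕ) (F : Fm.P → ℝ) :
    gB Fm n F F = ∑ x ∈ Fm.X n, (d * F x ^ 2 - ∑ s, F x * Fm.nbv F x s) := by
  unfold gB
  refine Finset.sum_congr rfl fun x _ => ?_
  ring

private theorem GSP_nonneg (n : ℕ) (F : Fm.P → ℝ) : 0 ≤ gB Fm n F F := by
  rw [GSP_form, Finset.sum_sub_distrib, sub_nonneg]
  have h1 : ∀ x s, F x * Fm.nbv F x s ≤
      (1 / 2) * ((if (Fm.nb x s).isSome then F x ^ 2 else 0) +
        (if (Fm.nb x s).isSome then F (gstep Fm x s) ^ 2 else 0)) := by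
    intro x s
    rw [GSP_nbv]
    split_ifs
    · nlinarith [sq_nonneg (F x - F (gstep Fm x s))]
    · simp
  have h2 : ∀ s, ∑ x ∈ Fm.X n, (if (Fm.nb x s).isSome then F (gstep Fm x s) ^ 2 else 0) =
      ∑ x ∈ Fm.X n, (if (Fm.nb x s).isSome then F x ^ 2 else 0) := by
    intro s
    rw [← GSP_sum Fm n s (fun x => if (Fm.nb x s).isSome then F x ^ 2 else 0)]
    refine Finset.sum_congr rfl fun x _ => ?_
    simp only [GSP_isSome]
  calc ∑ x ∈ Fm.X n, ∑ s, F x * Fm.nbv F x s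
      ≤ ∑ x ∈ Fm.X n, ∑ s, (1 / 2) * ((if (Fm.nb x s).isSome then F x ^ 2 else 0) +
        (if (Fm.nb x s).isSome then F (gstep Fm x s) ^ 2 else 0)) :=
        Finset.sum_le_sum fun x _ => Finset.sum_le_sum fun s _ => h1 x s
    _ = ∑ s, ∑ x ∈ Fm.X n, (1 / 2) * ((if (Fm.nb x s).isSome then F x ^ 2 else 0) +
        (if (Fm.nb x s).isSome then F (gstep Fm x s) ^ 2 else 0)) := Finset.sum_comm
    _ = ∑ s, ∑ x ∈ Fm.X n, (if (Fm.nb x s).isSome then F x ^ 2 else 0) := by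
        refine Finset.sum_congr rfl fun s _ => ?_
        rw [← Finset.mul_sum, Finset.sum_add_distrib, h2 s]
        ring
    _ = ∑ x ∈ Fm.X n, ∑ s, (if (Fm.nb x s).isSome then F x ^ 2 else 0) := Finset.sum_comm
    _ ≤ ∑ x ∈ Fm.X n, (d : ℝ) * F x ^ 2 := by
        refine Finset.sum_le_sum fun x _ => ?_
        have h3 : ∑ s, (if (Fm.nb x s).isSome then F x ^ 2 else 0) =
            ((Fm.toPG.ty x).card : ℝ) * F x ^ 2 := by
          rw [← Finset.sum_filter, Finset.sum_const, nsmul_eq_mul]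
          rfl
        rw [h3]
        have h4 : ((Fm.toPG.ty x).card : ℝ) ≤ d := by exact_mod_cast Fm.deg x
        exact mul_le_mul_of_nonneg_right h4 (sq_nonneg _)

private theorem GSP_one (n : ℕ) :
    gB Fm n (fun _ => 1) (fun _ => 1) = d * (Fm.X n).card - Fm.darts (Fm.X n) := by
  unfold gB
  rw [Finset.sum_sub_distrib]
  congr 1
  · simp [mul_comm]
  · unfold PG.darts
    have h1 : ∀ x s, (1 : ℝ) * Fm.nbv (fun _ => (1 : ℝ)) x s =
        if (Fm.nb x s).isSome then 1 else 0 := by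
      intro x s
      rw [GSP_nbv, one_mul]
    simp only [h1]
    rw [← Finset.sum_product' (Fm.X n) Finset.univ
      (fun x s => if (Fm.nb x s).isSome then (1 : ℝ) else 0), ← Finset.sum_filter,
      Finset.sum_const, nsmul_eq_mul, mul_one]
    congr 2
    refine Finset.filter_congr fun p hp => ?_
    have hpX : p.1 ∈ Fm.X n := (Finset.mem_product.1 hp).1
    constructor
    · intro h
      exact ⟨gstep Fm p.1 p.2, GSP_mem Fm hpX p.2, GSP_some Fm p.1 p.2 h⟩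
    · rintro ⟨y, _, hy⟩
      rw [hy]
      rfl

/-- extension by zero -/
private def gext (n : ℕ) (f : EuclideanSpace ℝ {y // y ∈ Fm.X n}) : Fm.P → ℝ :=
  fun y => if h : y ∈ Fm.X n then f ⟨y, h⟩ else 0

private theorem GSP_ext_coe (n : ℕ) (f : EuclideanSpace ℝ {y // y ∈ Fm.X n})
    (y : {y // y ∈ Fm.X n}) : gext Fm n f y.1 = f y := by
  unfold gext
  rw [dif_pos y.2]

private theorem GSP_nbv_add (F G : Fm.P → ℝ) (x : Fm.P) (s : S) :
    Fm.nbv (fun x => F x + G x) x s = Fm.nbv F x s + Fm.nbv G x s := by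
  rw [GSP_nbv, GSP_nbv, GSP_nbv]
  split_ifs <;> simp

private theorem GSP_nbv_mul (c : ℝ) (F : Fm.P → ℝ) (x : Fm.P) (s : S) :
    Fm.nbv (fun x => c * F x) x s = c * Fm.nbv F x s := by
  rw [GSP_nbv, GSP_nbv]
  split_ifs <;> simp

/-- the operator `d - Adj` -/
private def gT (n : ℕ) :
    EuclideanSpace ℝ {y // y ∈ Fm.X n} →ₗ[ℝ] EuclideanSpace ℝ {y // y ∈ Fm.X n} where
  toFun f := WithLp.toLp 2 (fun y => d * f y - ∑ s, Fm.nbv (gext Fm n f) y.1 s)
  map_add' f g := by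
    have h : gext Fm n (f + g) = fun x => gext Fm n f x + gext Fm n g x := by
      funext x
      unfold gext
      split_ifs <;> simp
    ext y
    simp only [h, GSP_nbv_add, Finset.sum_add_distrib, PiLp.add_apply]
    ring
  map_smul' c f := by
    have h : gext Fm n (c • f) = fun x => c * gext Fm n f x := by
      funext x
      unfold gext
      split_ifs <;> simp
    ext y
    simp only [h, GSP_nbv_mul, ← Finset.mul_sum, PiLp.smul_apply, smul_eq_mul, RingHom.id_apply]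
    ring

private theorem GSP_inner (n : ℕ) (f g : EuclideanSpace ℝ {y // y ∈ Fm.X n}) :
    inner ℝ (gT Fm n f) g = gB Fm n (gext Fm n f) (gext Fm n g) := by
  rw [PiLp.inner_apply]
  unfold gB
  rw [← Finset.sum_coe_sort (Fm.X n)]
  refine Finset.sum_congr rfl fun y _ => ?_
  rw [GSP_ext_coe, GSP_ext_coe]
  simp only [gT, LinearMap.coe_mk, AddHom.coe_mk, RCLike.inner_apply, conj_trivial]
  rw [← Finset.mul_sum]
  ring

private theorem GSP_norm (n : ℕ) (f : EuclideanSpace ℝ {y // y ∈ Fm.X n}) :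
    ‖f‖ ^ 2 = ∑ y ∈ Fm.X n, gext Fm n f y ^ 2 := by
  rw [EuclideanSpace.real_norm_sq_eq, ← Finset.sum_coe_sort (Fm.X n)]
  refine Finset.sum_congr rfl fun y _ => ?_
  rw [GSP_ext_coe]

/-- one graph -/
private theorem GSP_level (cP ε : ℝ) (hε : ε < cP) (h3 : Fm.B3 ε)
    (hP : Fm.Poin cP) (n : ℕ) : ∃ (φ : Fm.P → ℝ) (lm : ℝ), 0 ≤ lm ∧ lm ≤ ε ∧
      (∀ y, y ∉ Fm.X n → φ y = 0) ∧ ∑ y ∈ Fm.X n, φ y ^ 2 = 1 ∧
      (∀ y ∈ Fm.X n, (d : ℝ) * φ y - ∑ s, Fm.nbv φ y s = lm * φ y) ∧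
      ∀ f : Fm.P → ℝ, cP * (∑ y ∈ Fm.X n, f y ^ 2 - (∑ y ∈ Fm.X n, φ y * f y) ^ 2) ≤
        ∑ y ∈ Fm.X n, (d * f y ^ 2 - ∑ s, f y * Fm.nbv f y s) := by
  obtain ⟨x0, hx0⟩ := Fm.nonempty n
  have hne : Nonempty {y // y ∈ Fm.X n} := ⟨⟨x0, hx0⟩⟩
  have hsym : (gT Fm n).IsSymmetric := by
    intro f g
    rw [GSP_inner, real_inner_comm, GSP_inner, GSP_symm]
  have hcardpos : (0 : ℝ) < (Fm.X n).card := by
    exact_mod_cast Finset.card_pos.2 ⟨x0, hx0⟩
  have hnt : Nontrivial (EuclideanSpace ℝ {y // y ∈ Fm.X n}) := by infer_instance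
  have heig := hsym.hasEigenvalue_iInf_of_finiteDimensional
  obtain ⟨lm, hlm⟩ : ∃ lm : ℝ, lm = ⨅ x : {x : EuclideanSpace ℝ {y // y ∈ Fm.X n} // x ≠ 0},
    RCLike.re (inner ℝ (gT Fm n x.1) x.1) / ‖x.1‖ ^ 2 := ⟨_, rfl⟩
  rw [← hlm] at heig
  obtain ⟨v, hv⟩ := heig.exists_hasEigenvector
  have hv0 : v ≠ 0 := hv.2
  have hTv : gT Fm n v = lm • v := by
    have := hv.apply_eq_smul
    exact this
  have hvpos : 0 < ‖v‖ := norm_pos_iff.2 hv0
  have hlm0 : 0 ≤ lm := by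
    rw [hlm]
    refine Real.iInf_nonneg fun x => ?_
    refine div_nonneg ?_ (sq_nonneg _)
    rw [RCLike.re_to_real, GSP_inner]
    exact GSP_nonneg Fm n _
  have hlme : lm ≤ ε := by
    obtain ⟨w, hw⟩ : ∃ w : EuclideanSpace ℝ {y // y ∈ Fm.X n}, w = WithLp.toLp 2 (fun _ => 1) :=
      ⟨_, rfl⟩
    have hwe : ∀ x ∈ Fm.X n, gext Fm n w x = 1 := by
      intro x hx
      unfold gext
      rw [dif_pos hx, hw]
    have hwn : ‖w‖ ^ 2 = (Fm.X n).card := by
      rw [GSP_norm, Finset.sum_congr rfl fun x hx => by rw [hwe x hx, one_pow]]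
      simp
    have hw0 : w ≠ 0 := by
      rintro rfl
      rw [norm_zero] at hwn
      simp only [ne_eq, OfNat.ofNat_ne_zero, not_false_eq_true, zero_pow] at hwn
      exact hcardpos.ne hwn
    have hbdd : BddBelow (Set.range fun x : {x : EuclideanSpace ℝ {y // y ∈ Fm.X n} // x ≠ 0} =>
        RCLike.re (inner ℝ (gT Fm n x.1) x.1) / ‖x.1‖ ^ 2) := by
      refine ⟨0, ?_⟩
      rintro _ ⟨x, rfl⟩
      simp only
      refine div_nonneg ?_ (sq_nonneg _)
      rw [RCLike.re_to_real, GSP_inner]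
      exact GSP_nonneg Fm n _
    have h4 := ciInf_le hbdd ⟨w, hw0⟩
    simp only at h4
    rw [← hlm, RCLike.re_to_real, GSP_inner, hwn] at h4
    have h5 : gB Fm n (gext Fm n w) (gext Fm n w) = gB Fm n (fun _ => 1) (fun _ => 1) := by
      unfold gB
      refine Finset.sum_congr rfl fun x hx => ?_
      rw [hwe x hx]
      congr 1
      refine Finset.sum_congr rfl fun s _ => ?_
      rw [GSP_nbv, GSP_nbv]
      split_ifs
      · rw [hwe _ (GSP_mem Fm hx s)]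
      · rfl
    rw [h5, GSP_one, le_div_iff₀ hcardpos] at h4
    have h6 := h3 n
    have h7 : lm * (Fm.X n).card ≤ ε * (Fm.X n).card := by linarith
    exact le_of_mul_le_mul_right h7 hcardpos
  obtain ⟨u, hu⟩ : ∃ u : EuclideanSpace ℝ {y // y ∈ Fm.X n}, u = ‖v‖⁻¹ • v := ⟨_, rfl⟩
  have hTu : gT Fm n u = lm • u := by
    rw [hu, map_smul, hTv, smul_comm]
  have hun : ‖u‖ ^ 2 = 1 := by
    rw [hu, norm_smul, norm_inv, norm_norm, inv_mul_cancel₀ hvpos.ne', one_pow]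
  obtain ⟨φ, hφ⟩ : ∃ φ : Fm.P → ℝ, φ = gext Fm n u := ⟨_, rfl⟩
  have hφ1 : ∑ y ∈ Fm.X n, φ y ^ 2 = 1 := by rw [hφ, ← GSP_norm, hun]
  have hφeig : ∀ y ∈ Fm.X n, (d : ℝ) * φ y - ∑ s, Fm.nbv φ y s = lm * φ y := by
    intro y hy
    have h4 := congrArg (fun f : EuclideanSpace ℝ {y // y ∈ Fm.X n} => f ⟨y, hy⟩) hTu
    simp only [gT, LinearMap.coe_mk, AddHom.coe_mk, PiLp.smul_apply, smul_eq_mul] at h4
    have h5 : φ y = u ⟨y, hy⟩ := by rw [hφ]; exact GSP_ext_coe Fm n u ⟨y, hy⟩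
    rw [h5, ← h4, hφ]
  -- the bilinear form at the eigenfunction
  have hBφ : ∀ G : Fm.P → ℝ, gB Fm n φ G = lm * ∑ y ∈ Fm.X n, φ y * G y := by
    intro G
    unfold gB
    rw [Finset.mul_sum]
    refine Finset.sum_congr rfl fun y hy => ?_
    rw [← Finset.mul_sum]
    have := hφeig y hy
    calc (d : ℝ) * φ y * G y - G y * ∑ s, Fm.nbv φ y s
        = ((d : ℝ) * φ y - ∑ s, Fm.nbv φ y s) * G y := by ring
      _ = lm * φ y * G y := by rw [this]
      _ = lm * (φ y * G y) := by ring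
  have hBφφ : gB Fm n φ φ = lm := by
    rw [hBφ]
    have : ∑ y ∈ Fm.X n, φ y * φ y = 1 := by
      rw [← hφ1]
      exact Finset.sum_congr rfl fun y _ => by ring
    rw [this, mul_one]
  have hσ : ∑ y ∈ Fm.X n, φ y ≠ 0 := by
    intro h0
    have h4 := hP n φ h0
    rw [hφ1, ← GSP_form, hBφφ, mul_one] at h4
    linarith
  refine ⟨φ, lm, hlm0, hlme, ?_, hφ1, hφeig, ?_⟩
  · intro y hy
    rw [hφ]
    unfold gext
    rw [dif_neg hy]
  · intro f
    obtain ⟨a, ha⟩ : ∃ a : ℝ, a = ∑ y ∈ Fm.X n, φ y * f y := ⟨_, rfl⟩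
    rw [← ha, ← GSP_form]
    obtain ⟨f', hf'⟩ : ∃ f' : Fm.P → ℝ, f' = fun y => 1 * f y + (-a) * φ y := ⟨_, rfl⟩
    have horth : ∑ y ∈ Fm.X n, φ y * f' y = 0 := by
      have : ∑ y ∈ Fm.X n, φ y * f' y = ∑ y ∈ Fm.X n, φ y * f y - a * ∑ y ∈ Fm.X n, φ y ^ 2 := by
        rw [Finset.mul_sum, ← Finset.sum_sub_distrib, hf']
        exact Finset.sum_congr rfl fun y _ => by ring
      rw [this, ← ha, hφ1]
      ring
    have hf'2 : ∑ y ∈ Fm.X n, f' y ^ 2 = ∑ y ∈ Fm.X n, f y ^ 2 - a ^ 2 := by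
      have : ∑ y ∈ Fm.X n, f' y ^ 2 = ∑ y ∈ Fm.X n, f y ^ 2 - 2 * a * ∑ y ∈ Fm.X n, φ y * f y +
          a ^ 2 * ∑ y ∈ Fm.X n, φ y ^ 2 := by
        rw [Finset.mul_sum, Finset.mul_sum, ← Finset.sum_sub_distrib, ← Finset.sum_add_distrib, hf']
        exact Finset.sum_congr rfl fun y _ => by ring
      rw [this, ← ha, hφ1]
      ring
    have hBf : gB Fm n f f = a ^ 2 * lm + gB Fm n f' f' := by
      have h4 : f = fun y => a * φ y + 1 * f' y := by
        funext y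
        rw [hf']
        ring
      conv_lhs => rw [h4]
      rw [GSP_quad, hBφφ, hBφ, horth]
      ring
    -- the combination with sum zero
    obtain ⟨σ, hσd⟩ : ∃ σ : ℝ, σ = ∑ y ∈ Fm.X n, φ y := ⟨_, rfl⟩
    obtain ⟨σ', hσ'd⟩ : ∃ σ' : ℝ, σ' = ∑ y ∈ Fm.X n, f' y := ⟨_, rfl⟩
    rw [← hσd] at hσ
    have hsum : ∑ y ∈ Fm.X n, (σ' * φ y + (-σ) * f' y) = 0 := by
      rw [Finset.sum_add_distrib, ← Finset.mul_sum, ← Finset.mul_sum, ← hσd, ← hσ'd]
      ring
    have hpo := hP n (fun y => σ' * φ y + (-σ) * f' y) hsum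
    rw [← GSP_form, GSP_quad, hBφφ, hBφ, horth] at hpo
    have hsq : ∑ y ∈ Fm.X n, (σ' * φ y + (-σ) * f' y) ^ 2 =
        σ' ^ 2 + σ ^ 2 * ∑ y ∈ Fm.X n, f' y ^ 2 := by
      have : ∑ y ∈ Fm.X n, (σ' * φ y + (-σ) * f' y) ^ 2 =
          σ' ^ 2 * ∑ y ∈ Fm.X n, φ y ^ 2 - 2 * σ' * σ * ∑ y ∈ Fm.X n, φ y * f' y +
          σ ^ 2 * ∑ y ∈ Fm.X n, f' y ^ 2 := by
        rw [Finset.mul_sum, Finset.mul_sum, Finset.mul_sum, ← Finset.sum_sub_distrib,
          ← Finset.sum_add_distrib]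
        exact Finset.sum_congr rfl fun y _ => by ring
      rw [this, hφ1, horth]
      ring
    rw [hsq] at hpo
    have hσ2 : 0 < σ ^ 2 := by positivity
    have hkey : cP * ∑ y ∈ Fm.X n, f' y ^ 2 ≤ gB Fm n f' f' := by
      have h4 : σ ^ 2 * (cP * ∑ y ∈ Fm.X n, f' y ^ 2) ≤ σ ^ 2 * gB Fm n f' f' := by
        have h5 : 0 ≤ (cP - lm) * σ' ^ 2 := mul_nonneg (by linarith) (sq_nonneg _)
        nlinarith
      exact le_of_mul_le_mul_left h4 hσ2
    rw [hBf, ← hf'2]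
    have : 0 ≤ a ^ 2 * lm := mul_nonneg (sq_nonneg _) hlm0
    linarith

theorem partGS : PartGS := by
  intro S _ d Fm cP ε _ hε h3 hP
  have h := GSP_level Fm cP ε hε h3 hP
  choose φ lm h1 h2 h3' h4 h5 h6 using h
  exact ⟨⟨φ, lm, h1, h2, h3', h4, h5, h6⟩⟩

end

end P089
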