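import Vale.Agent.Lib.P089.Interface2

/-!
# P089: lacunary binary series are irrational
-/

namespace P089

theorem Irr_growth {e : ℕ → ℕ} (he : ∀ n, e n + n < e (n + 1)) (n j : ℕ) :
    e n + n + 1 + j ≤ e (j + (n + 1)) := by
  induction j with
  | zero =>
    rw [Nat.zero_add]
    exact he n
  | succ j ih =>
    have h1 := he (j + (n + 1))
    have h2 : j + 1 + (n + 1) = j + (n + 1) + 1 := by ring
    rw [h2]
    omega

theorem Irr_mono {e : ℕ → ℕ} (he : ∀ n, e n + n < e (n + 1)) : Monotone e :=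
  monotone_nat_of_le_succ fun n => by
    have := he n
    omega

/-- **Part Irr** -/
theorem partIrr : PartIrr := by
  intro e he t ht hr
  obtain ⟨q, hq⟩ := hr
  obtain ⟨n, hn⟩ : ∃ n : ℕ, n = q.den := ⟨_, rfl⟩
  have htail := (hasSum_nat_add_iff' (n + 1)).2 ht
  -- upper bound of the tail
  have hup : t - ∑ i ∈ Finset.range (n + 1), ((2 : ℝ) ^ e i)⁻¹ ≤ ((2 : ℝ) ^ (e n + n))⁻¹ := by
    refine hasSum_le (fun j => ?_) htail (hasSum_geometric_two' ((2 : ℝ) ^ (e n + n))⁻¹)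
    have h1 : ((2 : ℝ) ^ (e n + n))⁻¹ / 2 / 2 ^ j = ((2 : ℝ) ^ (e n + n + 1 + j))⁻¹ := by
      rw [pow_add _ (e n + n + 1) j, pow_succ, mul_inv, mul_inv]
      ring
    rw [h1]
    exact inv_anti₀ (by positivity) (pow_le_pow_right₀ (by norm_num) (Irr_growth he n j))
  -- positivity of the tail
  have hpos : 0 < t - ∑ i ∈ Finset.range (n + 1), ((2 : ℝ) ^ e i)⁻¹ := by
    have h1 := le_hasSum htail 0 (fun j _ => by positivity)
    refine lt_of_lt_of_le ?_ h1
    positivity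
  -- the multiple of the tail is an integer
  have hint : (q.den : ℝ) * (2 : ℝ) ^ e n * (t - ∑ i ∈ Finset.range (n + 1), ((2 : ℝ) ^ e i)⁻¹) =
      ((2 ^ e n * q.num - q.den * ∑ i ∈ Finset.range (n + 1), 2 ^ (e n - e i) : ℤ) : ℝ) := by
    have h1 : (q.den : ℝ) * t = q.num := by
      rw [← hq]
      have h2 := Rat.den_mul_eq_num q
      exact_mod_cast h2
    have h3 : (2 : ℝ) ^ e n * ∑ i ∈ Finset.range (n + 1), ((2 : ℝ) ^ e i)⁻¹ =
        ∑ i ∈ Finset.range (n + 1), (2 : ℝ) ^ (e n - e i) := by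
      rw [Finset.mul_sum]
      refine Finset.sum_congr rfl fun i hi => ?_
      have hi' : e i ≤ e n := Irr_mono he (Nat.lt_succ_iff.1 (Finset.mem_range.1 hi))
      rw [pow_sub₀ _ (by norm_num) hi']
    push_cast
    rw [← h3, ← h1]
    ring
  have hz1 : (0 : ℝ) < ((2 ^ e n * q.num - q.den *
      ∑ i ∈ Finset.range (n + 1), 2 ^ (e n - e i) : ℤ) : ℝ) := by
    rw [← hint]
    have h0 : (0 : ℝ) < q.den := by exact_mod_cast q.den_pos
    positivity
  have hz2 : (((2 ^ e n * q.num - q.den *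
      ∑ i ∈ Finset.range (n + 1), 2 ^ (e n - e i) : ℤ)) : ℝ) < 1 := by
    rw [← hint]
    have h0 : (0 : ℝ) < q.den := by exact_mod_cast q.den_pos
    have h1 : (q.den : ℝ) < 2 ^ n := by
      rw [← hn]
      exact_mod_cast Nat.lt_two_pow_self
    calc (q.den : ℝ) * (2 : ℝ) ^ e n * (t - ∑ i ∈ Finset.range (n + 1), ((2 : ℝ) ^ e i)⁻¹)
        ≤ (q.den : ℝ) * (2 : ℝ) ^ e n * ((2 : ℝ) ^ (e n + n))⁻¹ := by gcongr
      _ = (q.den : ℝ) / 2 ^ n := by
          rw [pow_add]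
          field_simp
      _ < 1 := by
          rw [div_lt_one (by positivity)]
          exact h1
  have hz3 : 0 < (2 ^ e n * q.num - q.den *
      ∑ i ∈ Finset.range (n + 1), 2 ^ (e n - e i) : ℤ) := by exact_mod_cast hz1
  have hz4 : (2 ^ e n * q.num - q.den *
      ∑ i ∈ Finset.range (n + 1), 2 ^ (e n - e i) : ℤ) < 1 := by exact_mod_cast hz2
  omega

end P089
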