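import Vale.Agent.Lib.P089.Asm
import Vale.Agent.Lib.P089.A.Main
import Vale.Agent.Lib.P089.A2.Main
import Vale.Agent.Lib.P089.A3.Main
import Vale.Agent.Lib.P089.B.Bb4
import Vale.Agent.Lib.P089.B.Ba.Main
import Vale.Agent.Lib.P089.BC.LabDefs
import Vale.Agent.Lib.P089.BC.LabOf
import Vale.Agent.Lib.P089.BC.FamOf
import Vale.Agent.Lib.P089.C.Main2
import Vale.Agent.Lib.P089.Ch.Main
import Vale.Agent.Lib.P089.D.D4
import Vale.Agent.Lib.P089.E.Main
import Vale.Agent.Lib.P089.E.E3
import Vale.Agent.Lib.P089.F.PF1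
import Vale.Agent.Lib.P089.F.F2
import Vale.Agent.Lib.P089.F.PF3
import Vale.Agent.Lib.P089.F.F4
import Vale.Agent.Lib.P089.F.PF5
import Vale.Agent.Lib.P089.F.PF6
import Vale.Agent.Lib.P089.F.PF7
import Vale.Agent.Lib.P089.E.Z
import Vale.Agent.Lib.P089.GSP
import Vale.Agent.Lib.P089.Irr
import Vale.Agent.Lib.P089.FGP

/-!
# P089: the final theorem
-/

namespace P089

theorem partA2' : PartA2 := partA2 A.partA

theorem partB' : PartB := BC.partBc BC.partLab BC.partFam (partBab partBa)

theorem partF3' : PartF3 := partF3 partA3 partD partCh partE3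

theorem counter2' : Counter2 :=
  counter2 partA2' partB' Vale.Agent.P089.C.partC2 partE partZ partGS partF4
    (partF5 partF1 partF2 partE3) (partF6 partF1 partF2 partF3') partF7 partF8 partIrr partFG

end P089
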