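import Vale.Agent.Lib.P089.Defs

/-!
# P089: the group `G = A ⋊ Gam`, its regular representation, the elements `Tel`, `Bel n`
-/

namespace P089

open scoped Classical

noncomputable section

/-- all data of the construction -/
structure Setup where
  S : Type
  [fS : Fintype S]
  d : ℕ
  Fm : Fam S d
  k : ℕ
  enc : Finset S → (Fin k → ZMod 2)
  enc_inj : ∀ t t', t.card ≤ d → t'.card ≤ d → enc t = enc t' → t = t'
  enc_ne : ∀ t, enc t ≠ 0
  R : ∀ n, Submodule (ZMod 2) ({y // y ∈ Fm.X n} → Fin k → ZMod 2)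
  R_dim : ∀ n, Module.finrank (ZMod 2) (R n) = k * (Fm.X n).card / 2
  R_tau : ∀ n, ∀ r ∈ R n, ∑ y, ∑ i, r y i * enc (Fm.ty y.1) i = 0
  R_ball : ∀ n, ∀ r ∈ R n, ∀ x : {y // y ∈ Fm.X n},
    (∀ y : {y // y ∈ Fm.X n},
      (¬ ∃ w, w.length ≤ 3 * Fm.L x.1 ∧ walk Fm.nb x.1 w = some y.1) → r y = 0) → r = 0
  R_code : ∀ n (ω : {y // y ∈ Fm.X n} → Fin k → ZMod 2),
    (∀ r ∈ R n, ∑ y, ∑ i, r y i * ω y i = 0) → ω ≠ 0 →
    (Fm.X n).card ≤ 10 * (Finset.univ.filter fun y => ω y ≠ 0).card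
  /-- chain which becomes central in the group -/
  rs : ∀ n, {y // y ∈ Fm.X n} → Fin k → ZMod 2
  rs_tau : ∀ n, ∑ y, ∑ i, rs n y i * enc (Fm.ty y.1) i = 0
  rs_ball : ∀ n, ∀ r ∈ R n, ∀ x : {y // y ∈ Fm.X n},
    ¬ ∀ y : {y // y ∈ Fm.X n},
      (¬ ∃ w, w.length ≤ 3 * Fm.L x.1 ∧ walk Fm.nb x.1 w = some y.1) → (rs n + r) y = 0

attribute [instance] Setup.fS

namespace Setup

variable (St : Setup)

abbrev Gm : Type := Gam St.Fm.toPG

/-- base position of `X n` -/
def bs (n : ℕ) : St.Fm.P := (St.Fm.nonempty n).choose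

/-- a word from the base position of `X n` to `y` -/
def wordTo (n : ℕ) (y : St.Fm.P) : List St.S :=
  if h : ∃ w, walk St.Fm.nb (St.bs n) w = some y then h.choose else []

/-- the element of `Gam` at position `y` of the copy with base position at `1` -/
def pos (n : ℕ) (y : St.Fm.P) : St.Gm := wd St.Fm.toPG (St.wordTo n y)

/-- chain `r` on the copy with base position at `γ` -/
def relEl (γ : St.Gm) (n : ℕ) (r : {y // y ∈ St.Fm.X n} → Fin St.k → ZMod 2) :
    St.Gm →₀ (Fin St.k → ZMod 2) :=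
  ∑ y, Finsupp.single (γ * St.pos n y.1) (r y)

/-- the relation module -/
def N : Submodule (ZMod 2) (St.Gm →₀ (Fin St.k → ZMod 2)) :=
  Submodule.span (ZMod 2) ({u | ∃ γ n, ∃ r ∈ St.R n, u = St.relEl γ n r} ∪
    {u | ∃ γ γ' n, u = St.relEl γ n (St.rs n) - St.relEl γ' n (St.rs n)})

abbrev A : Type := (St.Gm →₀ (Fin St.k → ZMod 2)) ⧸ St.N

/-- left translation -/
def shift (γ : St.Gm) :
    (St.Gm →₀ (Fin St.k → ZMod 2)) ≃ₗ[ZMod 2] (St.Gm →₀ (Fin St.k → ZMod 2)) :=
  Finsupp.domLCongr (Equiv.mulLeft γ)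

theorem shift_single (γ δ : St.Gm) (u : Fin St.k → ZMod 2) :
    St.shift γ (Finsupp.single δ u) = Finsupp.single (γ * δ) u := by
  simp [shift]

theorem shift_relEl (γ δ : St.Gm) (n : ℕ) (r : {y // y ∈ St.Fm.X n} → Fin St.k → ZMod 2) :
    St.shift γ (St.relEl δ n r) = St.relEl (γ * δ) n r := by
  unfold relEl
  rw [map_sum]
  refine Finset.sum_congr rfl fun y _ => ?_
  rw [shift_single, mul_assoc]

theorem shift_mul (γ δ : St.Gm) (u) : St.shift (γ * δ) u = St.shift γ (St.shift δ u) := by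
  induction u using Finsupp.induction_linear with
  | zero => simp
  | add f g hf hg => rw [map_add, hf, hg, map_add, map_add]
  | single a b => rw [shift_single, shift_single, shift_single, mul_assoc]

theorem shift_one (u) : St.shift 1 u = u := by
  induction u using Finsupp.induction_linear with
  | zero => simp
  | add f g hf hg => rw [map_add, hf, hg]
  | single a b => rw [shift_single, one_mul]

theorem shift_le (γ : St.Gm) : St.N.map (St.shift γ : _ →ₗ[ZMod 2] _) ≤ St.N := by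
  unfold N
  rw [Submodule.map_span, Submodule.span_le]
  rintro _ ⟨u, ⟨δ, n, r, hr, rfl⟩ | ⟨δ, δ', n, rfl⟩, rfl⟩
  · exact Submodule.subset_span (Or.inl ⟨γ * δ, n, r, hr, St.shift_relEl γ δ n r⟩)
  · refine Submodule.subset_span (Or.inr ⟨γ * δ, γ * δ', n, ?_⟩)
    change St.shift γ (St.relEl δ n (St.rs n) - St.relEl δ' n (St.rs n)) = _
    rw [map_sub, shift_relEl, shift_relEl]

theorem shift_map (γ : St.Gm) : St.N.map (St.shift γ : _ →ₗ[ZMod 2] _) = St.N := by
  refine le_antisymm (St.shift_le γ) fun u hu => ?_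
  refine ⟨St.shift γ⁻¹ u, St.shift_le γ⁻¹ ⟨u, hu, rfl⟩, ?_⟩
  change St.shift γ (St.shift γ⁻¹ u) = u
  rw [← shift_mul, mul_inv_cancel, shift_one]

/-- action of `Gam` on `A` -/
def actA (γ : St.Gm) : St.A ≃ₗ[ZMod 2] St.A :=
  Submodule.Quotient.equiv St.N St.N (St.shift γ) (St.shift_map γ)

theorem actA_mk (γ : St.Gm) (u) :
    St.actA γ (Submodule.Quotient.mk u) = Submodule.Quotient.mk (St.shift γ u) := rfl

/-- action of `Gam` on `Multiplicative A` -/
def phi : St.Gm →* MulAut (Multiplicative St.A) where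
  toFun γ := AddEquiv.toMultiplicative (St.actA γ).toAddEquiv
  map_one' := by
    ext a
    obtain ⟨u, hu⟩ := Submodule.Quotient.mk_surjective _ (Multiplicative.toAdd a)
    change Multiplicative.ofAdd (St.actA 1 (Multiplicative.toAdd a)) = a
    rw [← hu, actA_mk, shift_one, hu]
    rfl
  map_mul' γ δ := by
    ext a
    obtain ⟨u, hu⟩ := Submodule.Quotient.mk_surjective _ (Multiplicative.toAdd a)
    change Multiplicative.ofAdd (St.actA (γ * δ) (Multiplicative.toAdd a)) =
      Multiplicative.ofAdd (St.actA γ (St.actA δ (Multiplicative.toAdd a)))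
    rw [← hu, actA_mk, actA_mk, actA_mk, shift_mul]

/-- THE GROUP -/
abbrev G : Type := Multiplicative St.A ⋊[St.phi] St.Gm

/-- element of `G` from `A` -/
def ofA (a : St.A) : St.G := SemidirectProduct.inl (Multiplicative.ofAdd a)

/-- element of `G` from `Gam` -/
def ofG (γ : St.Gm) : St.G := SemidirectProduct.inr γ

/-- the central element of type `n` -/
def zc (n : ℕ) : St.A := Submodule.Quotient.mk (St.relEl 1 n (St.rs n))

/-- the generator `u` at the vertex `1` -/
def beta (u : Fin St.k → ZMod 2) : St.A := Submodule.Quotient.mk (Finsupp.single 1 u)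

/-- decoding of types -/
def dec (τ : Fin St.k → ZMod 2) : Option (Finset St.S) :=
  if h : ∃ t : Finset St.S, t.card ≤ St.d ∧ St.enc t = τ then some h.choose else none

/-- configuration of a linear functional on `A`, with values in `F_2^k` -/
def conf (χ : St.A →ₗ[ZMod 2] ZMod 2) (v : St.Gm) : Fin St.k → ZMod 2 :=
  fun i => χ (Submodule.Quotient.mk (Finsupp.single v (Pi.single i 1)))

/-- decoded configuration -/
def om (χ : St.A →ₗ[ZMod 2] ZMod 2) (v : St.Gm) : Option (Finset St.S) := St.dec (St.conf χ v)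

/-- pairing on `F_2^k` -/
def dotp {k : ℕ} (u τ : Fin k → ZMod 2) : ZMod 2 := ∑ i, u i * τ i

/-- sign of an element of `F_2` -/
def sgn (a : ZMod 2) : ℂ := if a = 0 then 1 else -1

/-- the projection `omega(1) = τ` -/
def eproj (τ : Fin St.k → ZMod 2) : MonoidAlgebra ℂ St.G :=
  ∑ u : Fin St.k → ZMod 2,
    MonoidAlgebra.single (St.ofA (St.beta u)) ((2 : ℂ)⁻¹ ^ St.k * sgn (dotp u τ))

/-- the element `T` of the group ring -/
def Tel : MonoidAlgebra ℂ St.G :=
  (∑ τ : Fin St.k → ZMod 2, (if (St.dec τ).isSome then (St.d : ℂ) else 1) • St.eproj τ)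
    - ∑ s : St.S, ∑ τ : Fin St.k → ZMod 2, ∑ τ' : Fin St.k → ZMod 2,
      if (∃ t, St.dec τ = some t ∧ s ∈ t) ∧ (∃ t, St.dec τ' = some t ∧ s ∈ t) then
        St.eproj τ' * MonoidAlgebra.single (St.ofG (gen _ s)) 1 * St.eproj τ
      else 0

/-- the finite subspace of `A` of the copy of `X n` with base position at `1` -/
def Acopy (n : ℕ) : Submodule (ZMod 2) St.A :=
  Submodule.span (ZMod 2) {a | ∃ y ∈ St.Fm.X n, ∃ u, a = Submodule.Quotient.mk
    (Finsupp.single (St.pos n y) u)}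

/-- `th` is the functional of the type pattern on `Acopy n` -/
def IsTau (n : ℕ) (th : St.A →ₗ[ZMod 2] ZMod 2) : Prop :=
  ∀ y ∈ St.Fm.X n, ∀ u : Fin St.k → ZMod 2,
    th (Submodule.Quotient.mk (Finsupp.single (St.pos n y) u)) = dotp u (St.enc (St.Fm.ty y))

/-- a functional on `A` extending the type pattern of the copy of `X n` at `1` -/
def tau (n : ℕ) : St.A →ₗ[ZMod 2] ZMod 2 :=
  if h : ∃ th, St.IsTau n th then h.choose else 0

/-- the projection `copy of X n with base position at 1 is active` -/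
def Eel (n : ℕ) : MonoidAlgebra ℂ St.G :=
  ∑ᶠ a ∈ (St.Acopy n : Set St.A),
    MonoidAlgebra.single (St.ofA a) (((Nat.card (St.Acopy n) : ℂ))⁻¹ * sgn (St.tau n a))

/-- `B_n`, for a function `φ` on the positions -/
def Bel (φ : ℕ → St.Fm.P → ℝ) (n : ℕ) : MonoidAlgebra ℂ St.G :=
  ∑ y ∈ St.Fm.X n, ((φ n y : ℝ) : ℂ) • (St.Eel n * MonoidAlgebra.single (St.ofG (St.pos n y)) 1)

end Setup

end

end P089
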